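import Vale.Agent.P268.T.Delta

/-!
# P268, topological half: the front coordinate `Yf` of the flat annulus chart

`Yf i₀ s = kap s i₀ + max (2 p i₀ / max |u₀| (‖p‖ / 2) - 1) 0`, for `s = (u₀, p)`.  It is
continuous off the origin, homogeneous of degree `0`, equal to `kap s i₀` for `kap s i₀ ≤ 1 / 2`,
and, near the visible points (`‖p‖ ≤ u₀`), strictly increasing in the direction of the first
coordinate `p i₀` (even at the face `x i₀ = 1` of the cube, where `kap s i₀` is constant).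
-/

set_option linter.unusedSectionVars false

namespace Vale.Agent.P268.T.H312

open Set Filter Topology Metric

variable {ι : Type*} [Fintype ι] [DecidableEq ι]

/-- Unit vector of the first coordinate, in the base. -/
noncomputable def eb (i₀ : ι) : ℝ × (ι → ℝ) := (0, Pi.single i₀ 1)

/-- The gauge used beyond the face `x i₀ = 1`. -/
noncomputable def den (s : ℝ × (ι → ℝ)) : ℝ := max |s.1| (‖s.2‖ / 2)

/-- The front coordinate. -/
noncomputable def Yf (i₀ : ι) (s : ℝ × (ι → ℝ)) : ℝ :=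
  kap s i₀ + max (2 * s.2 i₀ / den s - 1) 0

/-- The norm of the other coordinates. -/
noncomputable def rst (i₀ : ι) (p : ι → ℝ) : ℝ := ‖Function.update p i₀ 0‖

theorem rst_nonneg (i₀ : ι) (p : ι → ℝ) : 0 ≤ rst i₀ p := norm_nonneg _

theorem norm_eq_max (i₀ : ι) (p : ι → ℝ) : ‖p‖ = max |p i₀| (rst i₀ p) := by
  apply le_antisymm
  · rw [pi_norm_le_iff_of_nonneg (le_max_of_le_left (abs_nonneg _))]
    intro i
    by_cases h : i = i₀
    · subst h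
      exact le_max_left _ _
    · refine le_max_of_le_right ?_
      have := norm_le_pi_norm (Function.update p i₀ 0) i
      rwa [Function.update_of_ne h] at this
  · refine max_le (norm_le_pi_norm p i₀) ?_
    rw [rst, pi_norm_le_iff_of_nonneg (norm_nonneg _)]
    intro i
    by_cases h : i = i₀
    · subst h
      rw [Function.update_self, norm_zero]
      exact norm_nonneg _
    · rw [Function.update_of_ne h]
      exact norm_le_pi_norm p i

theorem add_eb_fst (i₀ : ι) (s : ℝ × (ι → ℝ)) (c : ℝ) : (s + c • eb i₀).1 = s.1 := by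
  simp [eb]

theorem add_eb_self (i₀ : ι) (s : ℝ × (ι → ℝ)) (c : ℝ) :
    (s + c • eb i₀).2 i₀ = s.2 i₀ + c := by
  simp [eb]

theorem add_eb_ne (i₀ : ι) (s : ℝ × (ι → ℝ)) (c : ℝ) {i : ι} (h : i ≠ i₀) :
    (s + c • eb i₀).2 i = s.2 i := by
  simp [eb, Pi.single_eq_of_ne h]

theorem rst_add_eb (i₀ : ι) (s : ℝ × (ι → ℝ)) (c : ℝ) :
    rst i₀ (s + c • eb i₀).2 = rst i₀ s.2 := by
  unfold rst
  congr 1
  funext i
  by_cases h : i = i₀
  · subst h; simp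
  · rw [Function.update_of_ne h, Function.update_of_ne h, add_eb_ne i₀ s c h]

theorem norm_eb (i₀ : ι) : ‖(eb i₀ : ℝ × (ι → ℝ))‖ = 1 := by
  have h : ‖(Pi.single i₀ 1 : ι → ℝ)‖ = 1 := by
    rw [Pi.norm_single, norm_one]
  simp [eb, Prod.norm_def, h]

/-! ### The direction `eb` and the chart -/

/-- `kap s i₀` in terms of `A = max |u₀| (2 rst)`. -/
theorem kap_self (i₀ : ι) (s : ℝ × (ι → ℝ)) :
    kap s i₀ = 2 * s.2 i₀ / max (max |s.1| (2 * rst i₀ s.2)) (2 * |s.2 i₀|) := by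
  have h : max |s.1| (2 * ‖s.2‖) = max (max |s.1| (2 * rst i₀ s.2)) (2 * |s.2 i₀|) := by
    rw [norm_eq_max i₀ s.2, mul_max_of_nonneg _ _ (by norm_num : (0 : ℝ) ≤ 2), max_comm (2 * |s.2 i₀|),
      max_assoc]
  rw [kap, Pi.smul_apply, smul_eq_mul, h, div_mul_eq_mul_div]

/-- The base function: `kap` in one variable. -/
noncomputable def fA (A x : ℝ) : ℝ := 2 * x / max A (2 * |x|)

theorem fA_eq_min {A x : ℝ} (hA : 0 < A) (hx : -(A / 2) ≤ x) : fA A x = min (2 * x / A) 1 := by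
  unfold fA
  rcases le_or_gt x (A / 2) with h | h
  · have h1 : 2 * |x| ≤ A := by
      have : |x| ≤ A / 2 := abs_le.mpr ⟨hx, h⟩
      linarith
    rw [max_eq_left h1, min_eq_left]
    rw [div_le_one hA]
    linarith
  · have hx0 : 0 < x := by linarith
    rw [abs_of_pos hx0, max_eq_right (by linarith), div_self (by linarith), min_eq_right]
    rw [le_div_iff₀ hA]
    linarith

/-- The base function of `Yf`. -/
noncomputable def fY (A a x : ℝ) : ℝ := fA A x + max (2 * x / a - 1) 0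

theorem fY_growth {A a x x' : ℝ} (ha : 0 < a) (hA : a ≤ A) (hx : -(A / 2) ≤ x) (h : x ≤ x') :
    2 / A * (x' - x) ≤ fY A a x' - fY A a x := by
  have hA0 : 0 < A := ha.trans_le hA
  unfold fY
  rw [fA_eq_min hA0 hx, fA_eq_min hA0 (hx.trans h)]
  have hd : 0 ≤ x' - x := sub_nonneg.mpr h
  have e1 : 2 / A ≤ 2 / a := div_le_div_of_nonneg_left zero_le_two ha hA
  have e2 : 2 / A * (x' - x) ≤ 2 / a * (x' - x) := mul_le_mul_of_nonneg_right e1 hd
  have e3 : 2 * x' / A - 2 * x / A = 2 / A * (x' - x) := by ring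
  have e4 : 2 * x' / a - 2 * x / a = 2 / a * (x' - x) := by ring
  have mono : max (2 * x / a - 1) 0 ≤ max (2 * x' / a - 1) 0 := by
    have h1 : 0 ≤ 2 / a * (x' - x) := by positivity
    exact max_le_max (by linarith) le_rfl
  rcases le_or_gt x' (A / 2) with h1 | h1
  · have h2 : 2 * x' / A ≤ 1 := by rw [div_le_one hA0]; linarith
    have h3 : 2 * x / A ≤ 1 := by rw [div_le_one hA0]; linarith
    rw [min_eq_left h2, min_eq_left h3]
    linarith
  · have h2 : 1 ≤ 2 * x' / A := by rw [le_div_iff₀ hA0]; linarith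
    have h2' : 1 ≤ 2 * x' / a := by rw [le_div_iff₀ ha]; linarith
    rw [min_eq_right h2, max_eq_left (a := 2 * x' / a - 1) (by linarith)]
    rcases le_or_gt x (A / 2) with h3 | h3
    · have h4 : 2 * x / A ≤ 1 := by rw [div_le_one hA0]; linarith
      rw [min_eq_left h4]
      rcases le_or_gt (2 * x / a) 1 with h5 | h5
      · rw [max_eq_right (a := 2 * x / a - 1) (by linarith)]
        have h6 : 2 * x' / A ≤ 2 * x' / a :=
          div_le_div_of_nonneg_left (by linarith) ha hA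
        linarith
      · rw [max_eq_left (a := 2 * x / a - 1) (by linarith)]
        linarith
    · have h4 : 1 ≤ 2 * x / A := by rw [le_div_iff₀ hA0]; linarith
      have h4' : 1 ≤ 2 * x / a := by rw [le_div_iff₀ ha]; linarith
      rw [min_eq_right h4, max_eq_left (a := 2 * x / a - 1) (by linarith)]
      linarith

/-- `Yf` in one variable: near the visible points. -/
theorem Yf_eq (i₀ : ι) {s : ℝ × (ι → ℝ)} (h : ‖s.2‖ ≤ 2 * |s.1|) :
    Yf i₀ s = fY (max |s.1| (2 * rst i₀ s.2)) |s.1| (s.2 i₀) := by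
  have hd : den s = |s.1| := max_eq_left (by linarith)
  rw [Yf, fY, fA, kap_self, hd]

/-- Growth of `Yf` along the first coordinate, near the visible points. -/
theorem Yf_growth (i₀ : ι) {s : ℝ × (ι → ℝ)} {c : ℝ} (hc : 0 ≤ c) (h0 : s.1 ≠ 0)
    (h1 : ‖s.2‖ ≤ 2 * |s.1|) (h2 : ‖(s + c • eb i₀).2‖ ≤ 2 * |s.1|)
    (h3 : -(max |s.1| (2 * rst i₀ s.2) / 2) ≤ s.2 i₀) :
    c / ‖s‖ ≤ Yf i₀ (s + c • eb i₀) - Yf i₀ s := by
  have ha : 0 < |s.1| := abs_pos.mpr h0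
  have e1 := Yf_eq i₀ (s := s) h1
  have e2 := Yf_eq i₀ (s := s + c • eb i₀) (by rw [add_eb_fst]; exact h2)
  rw [add_eb_fst, rst_add_eb, add_eb_self] at e2
  rw [e1, e2]
  have h4 := fY_growth (A := max |s.1| (2 * rst i₀ s.2)) (a := |s.1|) (x := s.2 i₀)
    (x' := s.2 i₀ + c) ha (le_max_left _ _) h3 (by linarith)
  refine le_trans ?_ h4
  have h5 : max |s.1| (2 * rst i₀ s.2) ≤ 2 * ‖s‖ := by
    have h6 : |s.1| ≤ ‖s‖ := norm_fst_le s
    have h7 : rst i₀ s.2 ≤ ‖s‖ := by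
      refine le_trans ?_ (norm_snd_le s)
      rw [norm_eq_max i₀ s.2]
      exact le_max_right _ _
    have h8 := norm_nonneg s
    exact max_le (by linarith) (by linarith)
  have h9 : 0 < max |s.1| (2 * rst i₀ s.2) := ha.trans_le (le_max_left _ _)
  have h10 : 0 < ‖s‖ := by linarith
  have h11 : 1 / ‖s‖ ≤ 2 / max |s.1| (2 * rst i₀ s.2) := by
    rw [div_le_div_iff₀ h10 h9]
    linarith
  have h12 : c / ‖s‖ = 1 / ‖s‖ * c := by ring
  rw [h12, show s.2 i₀ + c - s.2 i₀ = c by ring]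
  exact mul_le_mul_of_nonneg_right h11 hc

/-! ### General properties of `Yf` -/

theorem den_pos {s : ℝ × (ι → ℝ)} (hs : s ≠ 0) : 0 < den s := by
  have h := kap_den_pos hs
  by_contra h0
  have h1 : |s.1| ≤ 0 := (le_max_left _ _).trans (not_lt.mp h0)
  have h2 : ‖s.2‖ / 2 ≤ 0 := (le_max_right _ _).trans (not_lt.mp h0)
  have h3 : max |s.1| (2 * ‖s.2‖) ≤ 0 := max_le h1 (by linarith)
  linarith

theorem den_eq {s : ℝ × (ι → ℝ)} (h : ‖s.2‖ ≤ 2 * |s.1|) : den s = |s.1| :=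
  max_eq_left (by linarith)

theorem den_smul {k : ℝ} (hk : 0 ≤ k) (s : ℝ × (ι → ℝ)) : den (k • s) = k * den s := by
  unfold den
  rw [Prod.smul_fst, Prod.smul_snd, norm_smul, Real.norm_eq_abs, smul_eq_mul, abs_mul,
    abs_of_nonneg hk, mul_max_of_nonneg _ _ hk, mul_div_assoc]

theorem Yf_smul (i₀ : ι) {k : ℝ} (hk : 0 < k) (s : ℝ × (ι → ℝ)) : Yf i₀ (k • s) = Yf i₀ s := by
  unfold Yf
  rw [kap_smul hk, den_smul hk.le, Prod.smul_snd, Pi.smul_apply, smul_eq_mul]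
  congr 3
  rw [mul_left_comm, mul_div_mul_left _ _ hk.ne']

theorem continuous_den : Continuous (den : ℝ × (ι → ℝ) → ℝ) := by
  unfold den
  fun_prop

theorem continuousAt_Yf (i₀ : ι) {s : ℝ × (ι → ℝ)} (hs : s ≠ 0) :
    ContinuousAt (Yf i₀ : ℝ × (ι → ℝ) → ℝ) s := by
  have h1 : ContinuousAt (fun s : ℝ × (ι → ℝ) => kap s i₀) s :=
    (continuous_apply i₀).continuousAt.comp (continuousAt_kap hs)
  have h2 : ContinuousAt (fun s : ℝ × (ι → ℝ) => 2 * s.2 i₀ / den s) s := by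
    have : Continuous fun s : ℝ × (ι → ℝ) => 2 * s.2 i₀ := by fun_prop
    exact this.continuousAt.div continuous_den.continuousAt (den_pos hs).ne'
  exact h1.add ((h2.sub continuousAt_const).max continuousAt_const)

theorem abs_kap_le (i₀ : ι) (s : ℝ × (ι → ℝ)) : |kap s i₀| ≤ 1 :=
  (norm_le_pi_norm (kap s) i₀).trans (norm_kap_le s)

theorem kap_le_Yf (i₀ : ι) (s : ℝ × (ι → ℝ)) : kap s i₀ ≤ Yf i₀ s :=
  le_add_of_nonneg_right (le_max_right _ _)

theorem neg_one_le_Yf (i₀ : ι) (s : ℝ × (ι → ℝ)) : -1 ≤ Yf i₀ s :=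
  (abs_le.mp (abs_kap_le i₀ s)).1.trans (kap_le_Yf i₀ s)

theorem Yf_le_four (i₀ : ι) {s : ℝ × (ι → ℝ)} (hs : s ≠ 0) : Yf i₀ s ≤ 4 := by
  have h1 := (abs_le.mp (abs_kap_le i₀ s)).2
  have h2 : 2 * s.2 i₀ / den s ≤ 4 := by
    rw [div_le_iff₀ (den_pos hs)]
    have h3 : s.2 i₀ ≤ ‖s.2‖ := (le_abs_self _).trans (norm_le_pi_norm s.2 i₀)
    have h4 : ‖s.2‖ / 2 ≤ den s := le_max_right _ _
    linarith
  have h3 : max (2 * s.2 i₀ / den s - 1) 0 ≤ 3 := max_le (by linarith) (by norm_num)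
  unfold Yf
  linarith

/-- At the visible points `Yf ≤ 2`. -/
theorem Yf_le_two (i₀ : ι) {s : ℝ × (ι → ℝ)} (hs : s ≠ 0) (h : ‖s.2‖ ≤ |s.1|) :
    Yf i₀ s ≤ 2 := by
  have h1 := (abs_le.mp (abs_kap_le i₀ s)).2
  have h2 : 2 * s.2 i₀ / den s ≤ 2 := by
    rw [div_le_iff₀ (den_pos hs)]
    have h3 : s.2 i₀ ≤ ‖s.2‖ := (le_abs_self _).trans (norm_le_pi_norm s.2 i₀)
    have h4 : |s.1| ≤ den s := le_max_left _ _
    linarith
  have h3 : max (2 * s.2 i₀ / den s - 1) 0 ≤ 1 := max_le (by linarith) (by norm_num)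
  unfold Yf
  linarith

/-- At the visible points, `Yf` is `kap s i₀`, or `kap s i₀` is larger than `(Yf + 1) / 3`. -/
theorem Yf_visible (i₀ : ι) {s : ℝ × (ι → ℝ)} (hs : s ≠ 0) (h : ‖s.2‖ ≤ |s.1|) :
    Yf i₀ s = kap s i₀ ∨ (1 / 2 < kap s i₀ ∧ (Yf i₀ s + 1) / 3 ≤ kap s i₀) := by
  have hp : s.2 i₀ ≤ ‖s.2‖ := (le_abs_self _).trans (norm_le_pi_norm s.2 i₀)
  have hn := norm_nonneg s.2
  have hd : den s = |s.1| := den_eq (by linarith)
  have hd0 : 0 < |s.1| := hd ▸ den_pos hs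
  rcases le_or_gt (2 * s.2 i₀ / den s) 1 with h1 | h1
  · left
    unfold Yf
    rw [max_eq_right (by linarith), add_zero]
  · right
    rw [hd] at h1
    rw [lt_div_iff₀ hd0, one_mul] at h1
    have h2 : 0 < ‖s.2‖ := by linarith
    have hm : max |s.1| (2 * ‖s.2‖) = 2 * ‖s.2‖ := max_eq_right (by linarith)
    have hk : kap s i₀ = s.2 i₀ / ‖s.2‖ := by
      rw [kap, Pi.smul_apply, smul_eq_mul, hm]
      field_simp
    have h3 : 2 * s.2 i₀ / |s.1| ≤ 2 * (s.2 i₀ / ‖s.2‖) := by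
      rw [← mul_div_assoc]
      exact div_le_div_of_nonneg_left (by linarith) h2 h
    have h4 : 1 < 2 * s.2 i₀ / |s.1| := by rw [lt_div_iff₀ hd0]; linarith
    have h5 : Yf i₀ s = kap s i₀ + (2 * s.2 i₀ / |s.1| - 1) := by
      rw [Yf, hd, max_eq_left (by linarith)]
    rw [hk] at h5 ⊢
    constructor
    · linarith
    · linarith

/-- If `kap s i₀ ≤ 1 / 2`, then `Yf` is `kap s i₀`, near the visible points. -/
theorem Yf_eq_kap (i₀ : ι) {s : ℝ × (ι → ℝ)} (hs : s ≠ 0) (h : ‖s.2‖ ≤ |s.1|)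
    (hk : kap s i₀ ≤ 1 / 2) : Yf i₀ s = kap s i₀ :=
  (Yf_visible i₀ hs h).resolve_right fun h' => absurd h'.1 (not_lt.mpr hk)

/-- If `Yf s = c` at a visible point, then `kap s i₀ = c` or `kap s i₀ ≥ 1 / 2`. -/
theorem kap_of_Yf (i₀ : ι) {s : ℝ × (ι → ℝ)} (hs : s ≠ 0) (h : ‖s.2‖ ≤ |s.1|) {c : ℝ}
    (hk : c ≤ Yf i₀ s) : min c (1 / 2) ≤ kap s i₀ := by
  rcases Yf_visible i₀ hs h with h1 | h1
  · rw [← h1]; exact (min_le_left _ _).trans hk
  · exact (min_le_right _ _).trans h1.1.le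

/-! ### What does not move in the direction `eb` -/

theorem norm_snd_add_eb (i₀ : ι) {s : ℝ × (ι → ℝ)} {c : ℝ} (h1 : |s.2 i₀| ≤ rst i₀ s.2)
    (h2 : |s.2 i₀ + c| ≤ rst i₀ s.2) : ‖(s + c • eb i₀).2‖ = ‖s.2‖ := by
  rw [norm_eq_max i₀ s.2, norm_eq_max i₀ (s + c • eb i₀).2, rst_add_eb, add_eb_self,
    max_eq_right h1, max_eq_right h2]

theorem den0_add_eb (i₀ : ι) {s : ℝ × (ι → ℝ)} {c : ℝ}
    (h1 : 2 * |s.2 i₀| ≤ max |s.1| (2 * rst i₀ s.2))
    (h2 : 2 * |s.2 i₀ + c| ≤ max |s.1| (2 * rst i₀ s.2)) :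
    max |(s + c • eb i₀).1| (2 * ‖(s + c • eb i₀).2‖) = max |s.1| (2 * ‖s.2‖) := by
  have e : ∀ s : ℝ × (ι → ℝ), max |s.1| (2 * ‖s.2‖) =
      max (max |s.1| (2 * rst i₀ s.2)) (2 * |s.2 i₀|) := fun s => by
    rw [norm_eq_max i₀ s.2, mul_max_of_nonneg _ _ (by norm_num : (0 : ℝ) ≤ 2),
      max_comm (2 * |s.2 i₀|), max_assoc]
  rw [e, e, add_eb_fst, rst_add_eb, add_eb_self, max_eq_left h1, max_eq_left h2]

/-- The other coordinates of `kap` do not move, away from the faces `x i₀ = ± 1`. -/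
theorem kap_add_eb_ne (i₀ : ι) {s : ℝ × (ι → ℝ)} {c : ℝ}
    (h1 : 2 * |s.2 i₀| ≤ max |s.1| (2 * rst i₀ s.2))
    (h2 : 2 * |s.2 i₀ + c| ≤ max |s.1| (2 * rst i₀ s.2)) {i : ι} (hi : i ≠ i₀) :
    kap (s + c • eb i₀) i = kap s i := by
  rw [kap, kap, Pi.smul_apply, Pi.smul_apply, den0_add_eb i₀ h1 h2, add_eb_ne i₀ s c hi]

/-- `kap` moves only in its first coordinate, away from the faces `x i₀ = ± 1`. -/
theorem kap_add_eb (i₀ : ι) {s : ℝ × (ι → ℝ)} {c : ℝ}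
    (h1 : 2 * |s.2 i₀| ≤ max |s.1| (2 * rst i₀ s.2))
    (h2 : 2 * |s.2 i₀ + c| ≤ max |s.1| (2 * rst i₀ s.2)) :
    kap (s + c • eb i₀) = Function.update (kap s) i₀ (kap (s + c • eb i₀) i₀) := by
  funext i
  by_cases hi : i = i₀
  · subst hi; simp
  · rw [Function.update_of_ne hi, kap_add_eb_ne i₀ h1 h2 hi]

/-- Condition of `kap_add_eb`, in terms of `kap`. -/
theorem abs_kap_lt_iff (i₀ : ι) {s : ℝ × (ι → ℝ)} (hs : s ≠ 0) :
    |kap s i₀| < 1 ↔ 2 * |s.2 i₀| < max |s.1| (2 * rst i₀ s.2) := by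
  have h0 := kap_den_pos hs
  have e : max |s.1| (2 * ‖s.2‖) = max (max |s.1| (2 * rst i₀ s.2)) (2 * |s.2 i₀|) := by
    rw [norm_eq_max i₀ s.2, mul_max_of_nonneg _ _ (by norm_num : (0 : ℝ) ≤ 2),
      max_comm (2 * |s.2 i₀|), max_assoc]
  rw [e] at h0
  rw [kap_self, abs_div, abs_of_pos h0, div_lt_one h0, abs_mul, abs_two, lt_max_iff]
  constructor
  · rintro (h | h)
    · exact h
    · exact absurd h (lt_irrefl _)
  · exact fun h => Or.inl h

theorem norm_add_eb (i₀ : ι) {s : ℝ × (ι → ℝ)} {c : ℝ} (h1 : ‖s.2‖ ≤ |s.1|)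
    (h2 : ‖(s + c • eb i₀).2‖ ≤ |s.1|) : ‖s + c • eb i₀‖ = ‖s‖ := by
  rw [Prod.norm_def, Prod.norm_def, add_eb_fst, Real.norm_eq_abs, max_eq_left h1, max_eq_left h2]

/-- In general, the gauge moves at most by `|c|`. -/
theorem abs_norm_add_eb_sub (i₀ : ι) (s : ℝ × (ι → ℝ)) (c : ℝ) :
    |‖s + c • eb i₀‖ - ‖s‖| ≤ |c| := by
  have h := abs_norm_sub_norm_le (s + c • eb i₀) s
  rwa [add_sub_cancel_left, norm_smul, norm_eb, mul_one, Real.norm_eq_abs] at h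

/-! ### Local growth -/

/-- Near a visible point with `x i₀ > -1`, `Yf` grows along `eb`, in both directions. -/
theorem Yf_growth_near (i₀ : ι) {s₀ : ℝ × (ι → ℝ)} (hs : s₀ ≠ 0) (h : ‖s₀.2‖ ≤ |s₀.1|)
    (hk : -1 < kap s₀ i₀) : ∃ U ∈ 𝓝 s₀, ∀ y ∈ U, ∀ l : ℝ, y + l • eb i₀ ∈ U →
      l ^ 2 ≤ 2 * ‖s₀‖ * (l * (Yf i₀ (y + l • eb i₀) - Yf i₀ y)) := by
  have ha : 0 < |s₀.1| := den_eq (s := s₀) (by linarith [norm_nonneg s₀.2]) ▸ den_pos hs
  have hn : 0 < ‖s₀‖ := norm_pos_iff.mpr hs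
  have c1 : Continuous fun s : ℝ × (ι → ℝ) => |s.1| := by fun_prop
  have c2 : Continuous fun s : ℝ × (ι → ℝ) => 2 * |s.1| - ‖s.2‖ := by fun_prop
  have c3 : Continuous fun s : ℝ × (ι → ℝ) => ‖s‖ := continuous_norm
  have cr : Continuous fun s : ℝ × (ι → ℝ) => rst i₀ s.2 := by
    unfold rst
    exact (continuous_snd.update i₀ continuous_const).norm
  have c4 : Continuous fun s : ℝ × (ι → ℝ) => s.2 i₀ + max |s.1| (2 * rst i₀ s.2) / 2 := by
    fun_prop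
  have v2 : 0 < 2 * |s₀.1| - ‖s₀.2‖ := by linarith
  have v4 : 0 < s₀.2 i₀ + max |s₀.1| (2 * rst i₀ s₀.2) / 2 := by
    rcases le_or_gt 0 (s₀.2 i₀) with h5 | h5
    · have := ha.trans_le (le_max_left |s₀.1| (2 * rst i₀ s₀.2))
      linarith
    · by_cases h6 : |kap s₀ i₀| < 1
      · have := (abs_kap_lt_iff i₀ hs).mp h6
        have h7 := neg_abs_le (s₀.2 i₀)
        linarith
      · exfalso
        have h7 := kap_den_pos hs
        have h8 : kap s₀ i₀ < 0 := by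
          rw [kap, Pi.smul_apply, smul_eq_mul]
          exact mul_neg_of_pos_of_neg (by positivity) h5
        rw [abs_of_neg h8] at h6
        linarith
  have e : {s : ℝ × (ι → ℝ) | 0 < |s.1| ∧ 0 < 2 * |s.1| - ‖s.2‖ ∧ ‖s‖ < 2 * ‖s₀‖ ∧
      0 < s.2 i₀ + max |s.1| (2 * rst i₀ s.2) / 2} ∈ 𝓝 s₀ := by
    have f1 := c1.continuousAt.eventually (lt_mem_nhds ha)
    have f2 := c2.continuousAt.eventually (lt_mem_nhds v2)
    have f3 := c3.continuousAt.eventually (gt_mem_nhds (show ‖s₀‖ < 2 * ‖s₀‖ by linarith))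
    have f4 := c4.continuousAt.eventually (lt_mem_nhds v4)
    filter_upwards [f1, f2, f3, f4] with s g1 g2 g3 g4
    exact ⟨g1, g2, g3, g4⟩
  refine ⟨_, e, ?_⟩
  -- the increasing case
  have key : ∀ y : ℝ × (ι → ℝ), y ∈ {s : ℝ × (ι → ℝ) | 0 < |s.1| ∧ 0 < 2 * |s.1| - ‖s.2‖ ∧
      ‖s‖ < 2 * ‖s₀‖ ∧ 0 < s.2 i₀ + max |s.1| (2 * rst i₀ s.2) / 2} → ∀ l : ℝ, 0 ≤ l →
      y + l • eb i₀ ∈ {s : ℝ × (ι → ℝ) | 0 < |s.1| ∧ 0 < 2 * |s.1| - ‖s.2‖ ∧
      ‖s‖ < 2 * ‖s₀‖ ∧ 0 < s.2 i₀ + max |s.1| (2 * rst i₀ s.2) / 2} →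
      l ≤ 2 * ‖s₀‖ * (Yf i₀ (y + l • eb i₀) - Yf i₀ y) := by
    rintro y ⟨g1, g2, g3, g4⟩ l hl ⟨g1', g2', g3', g4'⟩
    rw [add_eb_fst] at g1' g2'
    have hg := Yf_growth i₀ hl (abs_pos.mp g1) (by linarith) (by linarith)
      (show -(max |y.1| (2 * rst i₀ y.2) / 2) ≤ y.2 i₀ by linarith)
    have hy : 0 < ‖y‖ := by
      have := norm_fst_le y
      rw [Real.norm_eq_abs] at this
      linarith
    rw [div_le_iff₀ hy] at hg
    have h0 : 0 ≤ Yf i₀ (y + l • eb i₀) - Yf i₀ y := by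
      by_contra h0
      have : (Yf i₀ (y + l • eb i₀) - Yf i₀ y) * ‖y‖ < 0 :=
        mul_neg_of_neg_of_pos (not_le.mp h0) hy
      linarith
    calc l ≤ (Yf i₀ (y + l • eb i₀) - Yf i₀ y) * ‖y‖ := hg
      _ ≤ (Yf i₀ (y + l • eb i₀) - Yf i₀ y) * (2 * ‖s₀‖) :=
        mul_le_mul_of_nonneg_left g3.le h0
      _ = _ := by ring
  intro y hy l hyl
  rcases le_total 0 l with hl | hl
  · have := mul_le_mul_of_nonneg_left (key y hy l hl hyl) hl
    calc l ^ 2 = l * l := by ring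
      _ ≤ _ := this
      _ = _ := by ring
  · have e1 : y + l • eb i₀ + (-l) • eb i₀ = y := by
      rw [add_assoc, ← add_smul, add_neg_cancel, zero_smul, add_zero]
    have := key (y + l • eb i₀) hyl (-l) (by linarith) (by rw [e1]; exact hy)
    rw [e1] at this
    have h2 := mul_le_mul_of_nonneg_left this (show 0 ≤ -l by linarith)
    calc l ^ 2 = -l * -l := by ring
      _ ≤ _ := h2
      _ = _ := by ring

/-! ### Windows: the data do not move near the front -/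

/-- Where the front `Yf = c τ` is visible, data which are `x i₀`-constant for `x i₀` near `c τ`,
and constant for `x i₀ ≥ 1 / 2`, do not move in the direction `eb`. -/
theorem data_const {T V : Type*} [TopologicalSpace T] {S : Set T} (i₀ : ι) {b : T → (ι → ℝ) → V}
    {c : T → ℝ} {κ : ℝ} (hκ : 0 < κ)
    (hw : ∀ τ ∈ S, ∀ x x' : ι → ℝ, ‖x‖ ≤ 1 → ‖x'‖ ≤ 1 → (∀ i, i ≠ i₀ → x i = x' i) →
      |x i₀ - c τ| ≤ κ → |x' i₀ - c τ| ≤ κ → b τ x = b τ x')
    (hr : ∀ τ ∈ S, ∀ x x' : ι → ℝ, ‖x‖ ≤ 1 → ‖x'‖ ≤ 1 → 1 / 2 ≤ x i₀ → 1 / 2 ≤ x' i₀ →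
      b τ x = b τ x')
    {τ₀ : T} (hc : ContinuousWithinAt c S τ₀) {s₀ : ℝ × (ι → ℝ)} (hs : s₀ ≠ 0)
    (h : ‖s₀.2‖ ≤ |s₀.1|) (h1 : -1 < c τ₀) (hY : Yf i₀ s₀ = c τ₀) :
    ∃ U ∈ 𝓝 s₀, ∀ᶠ τ in 𝓝[S] τ₀, ∀ y ∈ U, ∀ l : ℝ, y + l • eb i₀ ∈ U →
      b τ (kap (y + l • eb i₀)) = b τ (kap y) := by
  have ck : ContinuousAt (fun s : ℝ × (ι → ℝ) => kap s i₀) s₀ :=
    (continuous_apply i₀).continuousAt.comp (continuousAt_kap hs)
  have hS : ∀ᶠ τ in 𝓝[S] τ₀, τ ∈ S := self_mem_nhdsWithin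
  by_cases h2 : 1 / 2 < kap s₀ i₀
  · refine ⟨{s | 1 / 2 < kap s i₀}, ck.eventually (lt_mem_nhds h2), ?_⟩
    filter_upwards [hS] with τ hτ y hy l hyl
    exact hr τ hτ _ _ (norm_kap_le _) (norm_kap_le _) (le_of_lt hyl) (le_of_lt hy)
  · have hYk : Yf i₀ s₀ = kap s₀ i₀ := Yf_eq_kap i₀ hs h (not_lt.mp h2)
    have h3 : |kap s₀ i₀| < 1 := by
      rw [abs_lt]
      constructor
      · rw [← hYk, hY]; exact h1
      · linarith [not_lt.mp h2]
    have ca : ContinuousAt (fun s : ℝ × (ι → ℝ) => |kap s i₀|) s₀ := ck.abs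
    have h4 : |kap s₀ i₀ - c τ₀| < κ / 2 := by
      rw [← hYk, hY, sub_self, abs_zero]; positivity
    have h5 : |c τ₀ - c τ₀| < κ / 2 := by rw [sub_self, abs_zero]; positivity
    have cb : ContinuousAt (fun s : ℝ × (ι → ℝ) => |kap s i₀ - c τ₀|) s₀ :=
      (ck.sub continuousAt_const).abs
    have cn : ∀ᶠ s in 𝓝 s₀, s ≠ (0 : ℝ × (ι → ℝ)) := isOpen_ne.mem_nhds hs
    have hev : {s : ℝ × (ι → ℝ) | |kap s i₀| < 1 ∧ |kap s i₀ - c τ₀| < κ / 2 ∧ s ≠ 0} ∈ 𝓝 s₀ := by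
      filter_upwards [ca.eventually (gt_mem_nhds h3), cb.eventually (gt_mem_nhds h4), cn]
        with s g1 g2 g3
      exact ⟨g1, g2, g3⟩
    refine ⟨_, hev, ?_⟩
    have hc' : ∀ᶠ τ in 𝓝[S] τ₀, |c τ - c τ₀| < κ / 2 :=
      ((hc.sub continuousWithinAt_const).abs).eventually (gt_mem_nhds h5)
    filter_upwards [hS, hc'] with τ hτ hcτ
    rintro y ⟨g1, g2, g3⟩ l ⟨g1', g2', g3'⟩
    have m1 := (abs_kap_lt_iff i₀ g3).mp g1
    have m2 := (abs_kap_lt_iff i₀ g3').mp g1'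
    rw [add_eb_fst, rst_add_eb, add_eb_self] at m2
    refine hw τ hτ _ _ (norm_kap_le _) (norm_kap_le _)
      (fun i hi => kap_add_eb_ne i₀ m1.le m2.le hi) ?_ ?_
    · have := abs_sub_le (kap (y + l • eb i₀) i₀) (c τ₀) (c τ)
      rw [abs_sub_comm (c τ₀)] at this
      linarith
    · have := abs_sub_le (kap y i₀) (c τ₀) (c τ)
      rw [abs_sub_comm (c τ₀)] at this
      linarith

/-! ### Fronts at the boundary of the slab: the direction `(-1, single i₀ K)` -/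

/-- The direction at the points where the slab is active. -/
noncomputable def ub (i₀ : ι) : ℝ × (ι → ℝ) := (-1, Pi.single i₀ 1)

theorem add_ub (i₀ : ι) (s : ℝ × (ι → ℝ)) (l : ℝ) :
    s + l • ub i₀ = (s.1 - l, (s + l • eb i₀).2) := by
  refine Prod.ext ?_ ?_
  · show s.1 + l * (-1) = s.1 - l
    ring
  · simp [ub, eb]

theorem norm_ub (i₀ : ι) : ‖(ub i₀ : ℝ × (ι → ℝ))‖ = 1 := by
  have h : ‖(Pi.single i₀ 1 : ι → ℝ)‖ = 1 := by
    rw [Pi.norm_single, norm_one]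
  simp [ub, Prod.norm_def, h]

/-- In the collar, `Yf` does not decrease if `|u₀|` decreases. -/
theorem Yf_anti_fst (i₀ : ι) {a a' : ℝ} {p : ι → ℝ} (ha' : 0 < |a'|) (h : |a'| ≤ |a|)
    (h1 : |a| ≤ 2 * ‖p‖) (h2 : ‖p‖ ≤ 2 * |a'|) : Yf i₀ (a, p) ≤ Yf i₀ (a', p) := by
  have k1 : kap (a, p) = kap (a', p) := by
    rw [kap_of_le (s := (a, p)) h1, kap_of_le (s := (a', p)) (h.trans h1)]
  have d1 : den (a, p) = |a| := den_eq (s := (a, p)) (by simpa using h2.trans (by linarith))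
  have d2 : den (a', p) = |a'| := den_eq (s := (a', p)) h2
  unfold Yf
  rw [k1, d1, d2]
  refine add_le_add_right ?_ _
  show max (2 * p i₀ / |a| - 1) 0 ≤ max (2 * p i₀ / |a'| - 1) 0
  rcases le_or_gt (p i₀) 0 with h3 | h3
  · have h4 : 2 * p i₀ / |a| ≤ 0 := div_nonpos_of_nonpos_of_nonneg (by linarith) (abs_nonneg _)
    rw [max_eq_right (by linarith)]
    exact le_max_right _ _
  · have h4 : 2 * p i₀ / |a| ≤ 2 * p i₀ / |a'| :=
      div_le_div_of_nonneg_left (by linarith) ha' h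
    exact max_le_max (by linarith) le_rfl

/-- Near a point of the boundary of the slab with `u₀ > 0`, `x i₀ > -1`, both `Yf` and the domain
function `‖p‖ - |u₀|` of the slab grow in the direction `ub`. -/
theorem growth_corner (i₀ : ι) {s₀ : ℝ × (ι → ℝ)} (hs : s₀ ≠ 0) (h : ‖s₀.2‖ = s₀.1)
    (hk : -1 < kap s₀ i₀) : ∃ U ∈ 𝓝 s₀, ∀ y ∈ U, ∀ l : ℝ, y + l • ub i₀ ∈ U →
      l ^ 2 ≤ 2 * ‖s₀‖ * (l * (Yf i₀ (y + l • ub i₀) - Yf i₀ y)) ∧
      l ^ 2 ≤ l * ((‖(y + l • ub i₀).2‖ - |(y + l • ub i₀).1|) - (‖y.2‖ - |y.1|)) := by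
  have hp0 : 0 ≤ s₀.1 := h ▸ norm_nonneg _
  have ha : 0 < s₀.1 := by
    rcases hp0.eq_or_lt with h0 | h0
    · exfalso
      apply hs
      have h2 : s₀.2 = 0 := norm_eq_zero.mp (by rw [h, ← h0])
      exact Prod.ext h0.symm h2
    · exact h0
  have hn : 0 < ‖s₀‖ := norm_pos_iff.mpr hs
  have hv : ‖s₀.2‖ ≤ |s₀.1| := by rw [abs_of_pos ha]; exact h.le
  -- condition `-‖p‖ < p i₀` at `s₀`
  have hk1 : -‖s₀.2‖ < s₀.2 i₀ := by
    have e1 : kap s₀ i₀ = ‖s₀.2‖⁻¹ * s₀.2 i₀ := by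
      rw [kap_of_le (by rw [abs_of_pos ha, h]; linarith)]
      rfl
    rw [e1, h] at hk
    rw [h]
    have h2 := mul_lt_mul_of_pos_left hk ha
    rw [← mul_assoc, mul_inv_cancel₀ ha.ne', one_mul] at h2
    linarith
  have cr : Continuous fun s : ℝ × (ι → ℝ) => rst i₀ s.2 := by
    unfold rst
    exact (continuous_snd.update i₀ continuous_const).norm
  -- `-rst < p i₀` or `0 < p i₀`
  have hk2 : 0 < s₀.2 i₀ + rst i₀ s₀.2 ∨ 0 < s₀.2 i₀ := by
    rw [norm_eq_max i₀ s₀.2] at hk1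
    rcases le_or_gt (s₀.2 i₀) 0 with h3 | h3
    · left
      rw [abs_of_nonpos h3] at hk1
      rcases le_total (-s₀.2 i₀) (rst i₀ s₀.2) with h4 | h4
      · rw [max_eq_right h4] at hk1; linarith
      · rw [max_eq_left h4] at hk1; linarith
    · exact Or.inr h3
  have hk3 : 0 < s₀.2 i₀ + rst i₀ s₀.2 := by
    rcases hk2 with h3 | h3
    · exact h3
    · have := rst_nonneg i₀ s₀.2
      linarith
  have c2 : Continuous fun s : ℝ × (ι → ℝ) => 2 * s.1 - ‖s.2‖ := by fun_prop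
  have c3 : Continuous fun s : ℝ × (ι → ℝ) => ‖s‖ := continuous_norm
  have c4 : Continuous fun s : ℝ × (ι → ℝ) => s.2 i₀ + rst i₀ s.2 := by fun_prop
  have c5 : Continuous fun s : ℝ × (ι → ℝ) => 2 * ‖s.2‖ - s.1 := by fun_prop
  obtain ⟨δ, hδ, hδ'⟩ : ∃ δ > 0, ∀ s : ℝ × (ι → ℝ), dist s s₀ < δ → 0 < s.1 ∧
      0 < 2 * s.1 - ‖s.2‖ ∧ ‖s‖ < 2 * ‖s₀‖ ∧ 0 < s.2 i₀ + rst i₀ s.2 ∧ 0 < 2 * ‖s.2‖ - s.1 := by
    have f1 := continuous_fst.continuousAt.eventually (lt_mem_nhds ha)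
    have f2 := c2.continuousAt.eventually (lt_mem_nhds (show 0 < 2 * s₀.1 - ‖s₀.2‖ by
      rw [h]; linarith))
    have f3 := c3.continuousAt.eventually (gt_mem_nhds (show ‖s₀‖ < 2 * ‖s₀‖ by linarith))
    have f4 := c4.continuousAt.eventually (lt_mem_nhds hk3)
    have f5 := c5.continuousAt.eventually (lt_mem_nhds (show 0 < 2 * ‖s₀.2‖ - s₀.1 by
      rw [h]; linarith))
    have f := f1.and (f2.and (f3.and (f4.and f5)))
    rw [Metric.eventually_nhds_iff] at f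
    obtain ⟨δ, hδ, H⟩ := f
    exact ⟨δ, hδ, fun s hs => H hs⟩
  refine ⟨ball s₀ δ, ball_mem_nhds s₀ hδ, ?_⟩
  -- the increasing case
  have key : ∀ y : ℝ × (ι → ℝ), dist y s₀ < δ → ∀ l : ℝ, 0 ≤ l → dist (y + l • ub i₀) s₀ < δ →
      l ≤ 2 * ‖s₀‖ * (Yf i₀ (y + l • ub i₀) - Yf i₀ y) ∧
      l ≤ (‖(y + l • ub i₀).2‖ - |(y + l • ub i₀).1|) - (‖y.2‖ - |y.1|) := by
    intro y hy l hl hyl
    obtain ⟨g1, g2, g3, g4, g5⟩ := hδ' y hy
    obtain ⟨g1', g2', g3', g4', g5'⟩ := hδ' _ hyl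
    rw [add_ub] at g1' g2' g3' g4' g5' ⊢
    simp only at g1' g2' g3' g4' g5' ⊢
    set p' := (y + l • eb i₀).2 with hp'
    -- the intermediate point `(y.1, p')`
    have ey : y + l • eb i₀ = (y.1, p') := by
      refine Prod.ext ?_ rfl
      rw [add_eb_fst]
    have n1 : ‖y.2‖ ≤ ‖p'‖ := by
      rw [norm_eq_max i₀ y.2, norm_eq_max i₀ p', hp', rst_add_eb, add_eb_self]
      refine max_le ?_ (le_max_right _ _)
      rcases le_or_gt 0 (y.2 i₀) with h3 | h3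
      · refine le_max_of_le_left ?_
        rw [abs_of_nonneg h3, abs_of_nonneg (by linarith)]
        linarith
      · refine le_max_of_le_right ?_
        rw [abs_of_neg h3]
        linarith
    have hy1 : 0 < ‖y‖ := by
      have := norm_fst_le y
      rw [Real.norm_eq_abs, abs_of_pos g1] at this
      linarith
    have hab : |y.1| = y.1 := abs_of_pos g1
    have hab' : |y.1 - l| = y.1 - l := abs_of_pos g1'
    have hg := Yf_growth i₀ (s := y) hl g1.ne' (by rw [hab]; linarith)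
      (by rw [hab, ← hp']; linarith)
      (by
        have h5 : rst i₀ y.2 ≤ max |y.1| (2 * rst i₀ y.2) / 2 := by
          have := le_max_right |y.1| (2 * rst i₀ y.2)
          linarith
        linarith)
    have hm : Yf i₀ (y + l • eb i₀) ≤ Yf i₀ (y.1 - l, p') := by
      rw [ey]
      refine Yf_anti_fst i₀ (by rw [hab']; exact g1') (by rw [hab, hab']; linarith) ?_ ?_
      · rw [hab]; linarith
      · rw [hab']; linarith
    rw [div_le_iff₀ hy1] at hg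
    constructor
    · have h0 : 0 ≤ Yf i₀ (y.1 - l, p') - Yf i₀ y := by
        have : 0 ≤ Yf i₀ (y + l • eb i₀) - Yf i₀ y := by
          by_contra h0
          have : (Yf i₀ (y + l • eb i₀) - Yf i₀ y) * ‖y‖ < 0 :=
            mul_neg_of_neg_of_pos (not_le.mp h0) hy1
          linarith
        linarith
      calc l ≤ (Yf i₀ (y + l • eb i₀) - Yf i₀ y) * ‖y‖ := hg
        _ ≤ (Yf i₀ (y.1 - l, p') - Yf i₀ y) * ‖y‖ :=
          mul_le_mul_of_nonneg_right (by linarith) hy1.le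
        _ ≤ (Yf i₀ (y.1 - l, p') - Yf i₀ y) * (2 * ‖s₀‖) :=
          mul_le_mul_of_nonneg_left g3.le h0
        _ = _ := by ring
    · rw [hab, hab']
      linarith
  intro y hy l hyl
  rw [mem_ball] at hy hyl
  rcases le_total 0 l with hl | hl
  · obtain ⟨k1, k2⟩ := key y hy l hl hyl
    constructor
    · calc l ^ 2 = l * l := by ring
        _ ≤ _ := mul_le_mul_of_nonneg_left k1 hl
        _ = _ := by ring
    · calc l ^ 2 = l * l := by ring
        _ ≤ _ := mul_le_mul_of_nonneg_left k2 hl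
  · have e1 : y + l • ub i₀ + (-l) • ub i₀ = y := by
      rw [add_assoc, ← add_smul, add_neg_cancel, zero_smul, add_zero]
    have hl' : 0 ≤ -l := by linarith
    obtain ⟨k1, k2⟩ := key (y + l • ub i₀) hyl (-l) hl' (by rw [e1]; exact hy)
    rw [e1] at k1 k2
    constructor
    · calc l ^ 2 = -l * -l := by ring
        _ ≤ _ := mul_le_mul_of_nonneg_left k1 hl'
        _ = _ := by ring
    · calc l ^ 2 = -l * -l := by ring
        _ ≤ _ := mul_le_mul_of_nonneg_left k2 hl'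
        _ = _ := by ring

end Vale.Agent.P268.T.H312
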