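import Vale.Agent.P268.T.H354.Win
import Vale.Agent.P268.T.H240.MDef

/-!
# P268, topological half: growth of the ramps of the ZIP

Growth of `zY`, of the moving ramp `zth`, and of the last family of ramps
`(1 - τ) zth 0 16 + τ zlin`, in the direction `zdir i₀ d = (-d, single i₀ 1)`.
-/

set_option linter.unusedSectionVars false

namespace Vale.Agent.P268.T.H312

open Set Filter Topology Metric Z293

variable {ι : Type*} [Fintype ι] [DecidableEq ι] {i₀ : ι}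

/-! ### The clamp -/

theorem c01_mono {a b : ℝ} (h : a ≤ b) : c01 a ≤ c01 b :=
  max_le_max le_rfl (min_le_min h le_rfl)

theorem c01_sub_le {a b : ℝ} (h : a ≤ b) : c01 b - c01 a ≤ b - a := by
  unfold c01
  rcases le_total a 0 with h1 | h1
  · rw [max_eq_left ((min_le_left a 1).trans h1)]
    rcases le_total b 0 with h2 | h2
    · rw [max_eq_left ((min_le_left b 1).trans h2)]
      linarith
    · have : max 0 (min b 1) ≤ b := max_le h2 (min_le_left _ _)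
      linarith
  · rcases le_total a 1 with h2 | h2
    · rw [min_eq_left h2, max_eq_right h1]
      have : max 0 (min b 1) ≤ b := max_le (h1.trans h) (min_le_left _ _)
      linarith
    · rw [min_eq_right h2, min_eq_right (h2.trans h)]
      linarith

theorem c01_of_mem {a : ℝ} (h0 : 0 ≤ a) (h1 : a ≤ 1) : c01 a = a := by
  unfold c01
  rw [min_eq_left h1, max_eq_right h0]

theorem lt_of_c01_lt {a : ℝ} (h : c01 a < 1) : a < 1 := by
  by_contra h1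
  rw [c01_of_one_le (not_lt.mp h1)] at h
  exact lt_irrefl _ h

theorem pos_of_c01_pos {a : ℝ} (h : 0 < c01 a) : 0 < a := by
  by_contra h1
  rw [c01_of_nonpos (not_lt.mp h1)] at h
  exact lt_irrefl _ h

/-! ### `zm` does not move -/

theorem pos_fst {s : ℝ × (ι → ℝ)} (hs : s ≠ 0) (h : ‖s.2‖ ≤ s.1) : 0 < s.1 := by
  have hp0 : 0 ≤ s.1 := (norm_nonneg _).trans h
  rcases hp0.eq_or_lt with h1 | h1
  · exfalso
    apply hs
    have h2 : s.2 = 0 := norm_le_zero_iff.mp (by rw [h1]; exact h)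
    exact Prod.ext h1.symm h2
  · exact h1

theorem norm_visible {s : ℝ × (ι → ℝ)} (hs : s ≠ 0) (h : ‖s.2‖ ≤ s.1) : ‖s‖ = s.1 := by
  rw [Prod.norm_def, Real.norm_eq_abs, abs_of_pos (pos_fst hs h), max_eq_left h]

theorem abs_lt_zm {s : ℝ × (ι → ℝ)} (hs : s ≠ 0) (h0 : |kap s i₀| < 1) : |s.2 i₀| < zm i₀ s := by
  rw [kap_apply i₀] at h0
  by_contra h
  have h1 := not_lt.mp h
  rw [max_eq_right h1] at h0
  have h2 : 0 < |s.2 i₀| := by
    rcases (abs_nonneg (s.2 i₀)).eq_or_lt with h2 | h2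
    · exfalso
      have h3 : zm i₀ s ≤ 0 := by rw [h2]; exact h1
      have h4 := zY_den_pos (i₀ := i₀) hs
      rw [← h2, zero_div] at h4
      have : max (zm i₀ s) 0 ≤ 0 := max_le h3 le_rfl
      linarith
    · exact h2
  rw [abs_div, abs_abs, div_self h2.ne'] at h0
  exact lt_irrefl _ h0

/-- Away from the faces `x i₀ = ± 1`, `zm` does not move in the direction `zdir`. -/
theorem zm_add_zdir {s : ℝ × (ι → ℝ)} (hs : s ≠ 0) (h : ‖s.2‖ ≤ s.1) (h0 : |kap s i₀| < 1) :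
    ∃ U ∈ 𝓝 s, ∀ d ∈ Icc (0 : ℝ) 1, (d = 0 ∨ ‖s.2‖ = s.1) → ∀ y ∈ U, ∀ γ : ℝ,
      y + γ • zdir i₀ d ∈ U → zm i₀ (y + γ • zdir i₀ d) = zm i₀ y ∧ |y.2 i₀| < zm i₀ y ∧
        |(y + γ • zdir i₀ d).2 i₀| < zm i₀ y ∧ s.1 / 4 < zm i₀ y ∧ zm i₀ y < 2 * s.1 := by
  have ha := pos_fst hs h
  have h1 := abs_lt_zm hs h0
  have cz : Continuous (zm i₀ : ℝ × (ι → ℝ) → ℝ) := continuous_zm
  have c1 : Continuous fun s : ℝ × (ι → ℝ) => zm i₀ s - |s.2 i₀| :=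
    cz.sub (continuous_abs.comp (continuous_co i₀))
  have f1 := c1.continuousAt.eventually (lt_mem_nhds (sub_pos.mpr h1))
  have f2 := (continuous_fst (X := ℝ) (Y := ι → ℝ)).continuousAt.eventually (lt_mem_nhds ha)
  have z1 : s.1 / 4 < zm i₀ s := by
    have : |s.1| / 2 ≤ zm i₀ s := le_max_right _ _
    rw [abs_of_pos ha] at this
    linarith
  have z2 : zm i₀ s < 2 * s.1 := by
    have h2 : zm i₀ s ≤ s.1 := by
      refine max_le ((norm_update_le i₀ s.2).trans h) ?_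
      rw [abs_of_pos ha]
      linarith
    linarith
  have f3 := cz.continuousAt.eventually (lt_mem_nhds z1)
  have f4 := cz.continuousAt.eventually (gt_mem_nhds z2)
  by_cases hds : ‖s.2‖ = s.1
  · -- `rst = ‖p‖ = u₀`
    have h2 : s.1 / 2 < ‖Function.update s.2 i₀ 0‖ := by
      rw [zm, abs_of_pos ha] at h1
      rw [norm_eq_max i₀] at hds
      by_contra h3
      rw [max_eq_right (not_lt.mp h3)] at h1
      have : max ‖Function.update s.2 i₀ 0‖ |s.2 i₀| ≤ s.1 / 2 := max_le (not_lt.mp h3) h1.le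
      linarith
    have cr : Continuous fun s : ℝ × (ι → ℝ) => ‖Function.update s.2 i₀ (0 : ℝ)‖ :=
      (continuous_snd.update i₀ continuous_const).norm
    have c2 : Continuous fun s : ℝ × (ι → ℝ) => ‖Function.update s.2 i₀ (0 : ℝ)‖ - s.1 / 2 := by
      fun_prop
    have f5 := c2.continuousAt.eventually (lt_mem_nhds (sub_pos.mpr h2))
    refine ⟨{y | 0 < zm i₀ y - |y.2 i₀| ∧ 0 < y.1 ∧ s.1 / 4 < zm i₀ y ∧ zm i₀ y < 2 * s.1 ∧
      0 < ‖Function.update y.2 i₀ (0 : ℝ)‖ - y.1 / 2}, by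
        filter_upwards [f1, f2, f3, f4, f5] with y g1 g2 g3 g4 g5
        exact ⟨g1, g2, g3, g4, g5⟩, ?_⟩
    rintro d ⟨hd0, hd1⟩ - y ⟨g1, g2, g3, g4, g5⟩ γ ⟨g1', g2', g3', g4', g5'⟩
    have e : zm i₀ (y + γ • zdir i₀ d) = zm i₀ y := by
      rw [update_add_zdir] at g5'
      rw [zm, zm, update_add_zdir, abs_of_pos g2, abs_of_pos g2', max_eq_left (by linarith),
        max_eq_left (by linarith)]
    rw [e] at g1'
    exact ⟨e, by linarith, by linarith, g3, g4⟩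
  · refine ⟨{y | 0 < zm i₀ y - |y.2 i₀| ∧ s.1 / 4 < zm i₀ y ∧ zm i₀ y < 2 * s.1}, by
        filter_upwards [f1, f3, f4] with y g1 g3 g4
        exact ⟨g1, g3, g4⟩, ?_⟩
    rintro d ⟨hd0, hd1⟩ hd y ⟨g1, g3, g4⟩ γ ⟨g1', g3', g4'⟩
    have hd' := hd.resolve_right hds
    have e : zm i₀ (y + γ • zdir i₀ d) = zm i₀ y := by
      rw [zm, zm, update_add_zdir, add_zdir_fst, hd', mul_zero, sub_zero]
    rw [e] at g1'
    exact ⟨e, by linarith, by linarith, g3, g4⟩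

/-- Growth of `zY` at all the visible points with `x i₀ > -1`. -/
theorem zY_growth_gen {s : ℝ × (ι → ℝ)} (hs : s ≠ 0) (hle : ‖s.2‖ ≤ s.1) (hk : -1 < kap s i₀) :
    ∃ U ∈ 𝓝 s, ∀ d ∈ Icc (0 : ℝ) 1, (d = 0 ∨ ‖s.2‖ = s.1) → ∀ y ∈ U, ∀ γ : ℝ, 0 ≤ γ →
      y + γ • zdir i₀ d ∈ U →
      γ / ‖s‖ / 2 ≤ zY i₀ (y + γ • zdir i₀ d) - zY i₀ y ∧
      zY i₀ (y + γ • zdir i₀ d) - zY i₀ y ≤ 20 / ‖s‖ * γ := by
  by_cases hp : 0 < s.2 i₀
  · obtain ⟨U, hU, H⟩ := zY_growth hle hp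
    exact ⟨U, hU, fun d hd _ => H d hd⟩
  · have hk1 : |kap s i₀| < 1 := by
      rw [abs_lt]
      refine ⟨hk, ?_⟩
      rw [kap_apply i₀]
      have : s.2 i₀ / max (zm i₀ s) |s.2 i₀| ≤ 0 :=
        div_nonpos_of_nonpos_of_nonneg (not_lt.mp hp) (le_max_of_le_right (abs_nonneg _))
      linarith
    obtain ⟨U, hU, H⟩ := zm_add_zdir hs hle hk1
    refine ⟨U, hU, fun d hd hd' y hy γ hγ hyγ => ?_⟩
    obtain ⟨e1, e2, e3, e4, e5⟩ := H d hd hd' y hy γ hyγ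
    have ha := pos_fst hs hle
    have hz : 0 < zm i₀ y := by linarith
    have n1 : zY i₀ y = y.2 i₀ / zm i₀ y := by
      rw [zY, max_eq_left (by linarith [abs_nonneg (y.2 i₀)])]
    have n2 : zY i₀ (y + γ • zdir i₀ d) = (y.2 i₀ + γ) / zm i₀ y := by
      rw [zY, e1, max_eq_left (by linarith [abs_nonneg ((y + γ • zdir i₀ d).2 i₀)]),
        add_zdir_same]
    rw [n1, n2, norm_visible hs hle]
    have e : (y.2 i₀ + γ) / zm i₀ y - y.2 i₀ / zm i₀ y = γ / zm i₀ y := by ring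
    rw [e]
    constructor
    · rw [div_div, mul_comm]
      exact div_le_div_of_nonneg_left hγ hz e5.le
    · rw [div_mul_eq_mul_div, div_le_div_iff₀ hz ha]
      nlinarith

/-- Growth of a ramp function: common form. -/
def Grow (i₀ : ι) {T : Type*} [TopologicalSpace T] (S : Set T) (θ : T → ℝ × (ι → ℝ) → ℝ)
    (τ₀ : T) (s : ℝ × (ι → ℝ)) (κ L : ℝ) : Prop :=
  ∃ U ∈ 𝓝 s, ∀ᶠ τ in 𝓝[S] τ₀, ∀ d ∈ Icc (0 : ℝ) 1, (d = 0 ∨ ‖s.2‖ = s.1) → ∀ y ∈ U,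
    ∀ γ : ℝ, 0 ≤ γ → y + γ • zdir i₀ d ∈ U →
      κ * γ ≤ θ τ (y + γ • zdir i₀ d) - θ τ y ∧ θ τ (y + γ • zdir i₀ d) - θ τ y ≤ L * γ

/-- Two-sided form. -/
theorem Grow.two {T : Type*} [TopologicalSpace T] {S : Set T} {θ : T → ℝ × (ι → ℝ) → ℝ}
    {τ₀ : T} {s : ℝ × (ι → ℝ)} {κ L : ℝ} (h : Grow i₀ S θ τ₀ s κ L) :
    ∃ U ∈ 𝓝 s, ∀ᶠ τ in 𝓝[S] τ₀, ∀ d ∈ Icc (0 : ℝ) 1, (d = 0 ∨ ‖s.2‖ = s.1) → ∀ y ∈ U,
      ∀ γ : ℝ, y + γ • zdir i₀ d ∈ U →
        κ * γ ^ 2 ≤ γ * (θ τ (y + γ • zdir i₀ d) - θ τ y) ∧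
        γ * (θ τ (y + γ • zdir i₀ d) - θ τ y) ≤ L * γ ^ 2 := by
  obtain ⟨U, hU, hev⟩ := h
  refine ⟨U, hU, ?_⟩
  filter_upwards [hev] with τ H d hd hd' y hy γ hyγ
  rcases le_total 0 γ with hγ | hγ
  · obtain ⟨k1, k2⟩ := H d hd hd' y hy γ hγ hyγ
    constructor
    · calc κ * γ ^ 2 = γ * (κ * γ) := by ring
        _ ≤ _ := mul_le_mul_of_nonneg_left k1 hγ
    · calc _ ≤ γ * (L * γ) := mul_le_mul_of_nonneg_left k2 hγ
        _ = _ := by ring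
  · have e1 : y + γ • zdir i₀ d + (-γ) • zdir i₀ d = y := by
      rw [add_assoc, ← add_smul, add_neg_cancel, zero_smul, add_zero]
    have hγ' : 0 ≤ -γ := by linarith
    obtain ⟨k1, k2⟩ := H d hd hd' _ hyγ (-γ) hγ' (by rw [e1]; exact hy)
    rw [e1] at k1 k2
    constructor
    · calc κ * γ ^ 2 = -γ * (κ * -γ) := by ring
        _ ≤ _ := mul_le_mul_of_nonneg_left k1 hγ'
        _ = _ := by ring
    · calc γ * (θ τ (y + γ • zdir i₀ d) - θ τ y) =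
          -γ * (θ τ y - θ τ (y + γ • zdir i₀ d)) := by ring
        _ ≤ -γ * (L * -γ) := mul_le_mul_of_nonneg_left k2 hγ'
        _ = _ := by ring

/-- **The moving ramp grows** wherever it lies strictly between `0` and `1`. -/
theorem grow_zth {T : Type*} [TopologicalSpace T] {S : Set T} {c K : T → ℝ} {τ₀ : T}
    (hc : ContinuousWithinAt c S τ₀) (hK : ContinuousWithinAt K S τ₀) (hK0 : 0 < K τ₀)
    {s : ℝ × (ι → ℝ)} (hs : s ≠ 0) (hle : ‖s.2‖ ≤ s.1) (hk : -1 < kap s i₀)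
    (h0 : 0 < zth i₀ (c τ₀) (K τ₀) s) (h1 : zth i₀ (c τ₀) (K τ₀) s < 1) :
    Grow i₀ S (fun τ => zth i₀ (c τ) (K τ)) τ₀ s (K τ₀ / 4 / ‖s‖) (40 * K τ₀ / ‖s‖) := by
  obtain ⟨U, hU, H⟩ := zY_growth_gen hs hle hk
  have g0 : 0 < K τ₀ * (zY i₀ s - c τ₀) + 1 := pos_of_c01_pos h0
  have g1 : K τ₀ * (zY i₀ s - c τ₀) + 1 < 1 := lt_of_c01_lt h1
  have hn : 0 < ‖s‖ := norm_pos_iff.mpr hs
  -- continuity of the argument
  have hcont : Tendsto (fun q : T × (ℝ × (ι → ℝ)) => K q.1 * (zY i₀ q.2 - c q.1) + 1)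
      (𝓝[S] τ₀ ×ˢ 𝓝 s) (𝓝 (K τ₀ * (zY i₀ s - c τ₀) + 1)) := by
    have t1 : Tendsto (fun q : T × (ℝ × (ι → ℝ)) => K q.1) (𝓝[S] τ₀ ×ˢ 𝓝 s) (𝓝 (K τ₀)) :=
      Tendsto.comp hK tendsto_fst
    have t2 : Tendsto (fun q : T × (ℝ × (ι → ℝ)) => c q.1) (𝓝[S] τ₀ ×ˢ 𝓝 s) (𝓝 (c τ₀)) :=
      Tendsto.comp hc tendsto_fst
    have t3 : Tendsto (fun q : T × (ℝ × (ι → ℝ)) => zY i₀ q.2) (𝓝[S] τ₀ ×ˢ 𝓝 s)
        (𝓝 (zY i₀ s)) :=
      Tendsto.comp (continuousAt_zY hs) tendsto_snd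
    exact (t1.mul (t3.sub t2)).add tendsto_const_nhds
  have hev := (hcont.eventually (lt_mem_nhds g0)).and (hcont.eventually (gt_mem_nhds g1))
  rw [eventually_prod_iff] at hev
  obtain ⟨P, hP, Q, hQ, hPQ⟩ := hev
  refine ⟨U ∩ {y | Q y}, inter_mem hU hQ, ?_⟩
  have hK1 : ∀ᶠ τ in 𝓝[S] τ₀, K τ₀ / 2 < K τ := hK.eventually (lt_mem_nhds (by linarith))
  have hK2 : ∀ᶠ τ in 𝓝[S] τ₀, K τ < 2 * K τ₀ := hK.eventually (gt_mem_nhds (by linarith))
  filter_upwards [hP, hK1, hK2] with τ hτ k1 k2 d hd hd' y hy γ hγ hyγ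
  obtain ⟨a1, a2⟩ := hPQ hτ hy.2
  obtain ⟨b1, b2⟩ := hPQ hτ hyγ.2
  obtain ⟨l1, l2⟩ := H d hd hd' y hy.1 γ hγ hyγ.1
  simp only at a1 a2 b1 b2
  have e : zth i₀ (c τ) (K τ) (y + γ • zdir i₀ d) - zth i₀ (c τ) (K τ) y =
      K τ * (zY i₀ (y + γ • zdir i₀ d) - zY i₀ y) := by
    rw [zth, zth, c01_of_mem b1.le b2.le, c01_of_mem a1.le a2.le]
    ring
  show _ ≤ zth i₀ (c τ) (K τ) (y + γ • zdir i₀ d) - zth i₀ (c τ) (K τ) y ∧
    zth i₀ (c τ) (K τ) (y + γ • zdir i₀ d) - zth i₀ (c τ) (K τ) y ≤ _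
  rw [e]
  have hKp : 0 < K τ := by linarith
  have hgn : 0 ≤ γ / ‖s‖ / 2 := by positivity
  constructor
  · calc K τ₀ / 4 / ‖s‖ * γ = K τ₀ / 2 * (γ / ‖s‖ / 2) := by ring
      _ ≤ K τ * (γ / ‖s‖ / 2) := mul_le_mul_of_nonneg_right k1.le hgn
      _ ≤ _ := mul_le_mul_of_nonneg_left l1 hKp.le
  · calc _ ≤ K τ * (20 / ‖s‖ * γ) := mul_le_mul_of_nonneg_left l2 hKp.le
      _ ≤ 2 * K τ₀ * (20 / ‖s‖ * γ) := mul_le_mul_of_nonneg_right k2.le (by positivity)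
      _ = _ := by ring

/-! ### The last family of ramps -/

/-- The last family of ramps: from `zth 0 16` to `zlin`. -/
noncomputable def zlast (i₀ : ι) (K r0 τ : ℝ) (s : ℝ × (ι → ℝ)) : ℝ :=
  (1 - τ) * zth i₀ 0 16 s + τ * H240.zlin i₀ K r0 s

theorem zlast_zero (K r0 : ℝ) : zlast i₀ K r0 0 = zth i₀ 0 16 := by
  funext s
  rw [zlast]
  ring

theorem zlast_one (K r0 : ℝ) : zlast i₀ K r0 1 = H240.zlin i₀ K r0 := by
  funext s
  rw [zlast]
  ring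

theorem zlin_nonneg (K r0 : ℝ) (s : ℝ × (ι → ℝ)) : 0 ≤ H240.zlin i₀ K r0 s := c01_nonneg _

theorem zlin_le_one (K r0 : ℝ) (s : ℝ × (ι → ℝ)) : H240.zlin i₀ K r0 s ≤ 1 := c01_le_one _

theorem zlast_mem {K r0 τ : ℝ} (hτ : τ ∈ Icc (0 : ℝ) 1) (s : ℝ × (ι → ℝ)) :
    zlast i₀ K r0 τ s ∈ Icc (0 : ℝ) 1 := by
  have h1 : 0 ≤ zth i₀ 0 16 s := c01_nonneg _
  have h2 : zth i₀ 0 16 s ≤ 1 := c01_le_one _
  have h3 := zlin_nonneg (i₀ := i₀) K r0 s
  have h4 := zlin_le_one (i₀ := i₀) K r0 s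
  have h5 : 0 ≤ 1 - τ := by linarith [hτ.2]
  unfold zlast
  constructor
  · have := mul_nonneg h5 h1
    have := mul_nonneg hτ.1 h3
    linarith
  · have := mul_le_mul_of_nonneg_left h2 h5
    have := mul_le_mul_of_nonneg_left h4 hτ.1
    linarith

theorem zlin_smul (K r0 : ℝ) {k : ℝ} (hk : 0 < k) (s : ℝ × (ι → ℝ)) :
    H240.zlin i₀ K r0 (k • s) = H240.zlin i₀ K r0 s := by
  unfold H240.zlin
  rw [norm_smul, Real.norm_eq_abs, abs_of_pos hk, Prod.smul_snd, Pi.smul_apply, smul_eq_mul]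
  congr 2
  rw [show K * (k * s.2 i₀) = k * (K * s.2 i₀) by ring,
    show 2 * r0 * (k * ‖s‖) = k * (2 * r0 * ‖s‖) by ring, mul_div_mul_left _ _ hk.ne']

theorem zth_smul (c K : ℝ) {k : ℝ} (hk : 0 < k) (s : ℝ × (ι → ℝ)) :
    zth i₀ c K (k • s) = zth i₀ c K s := by
  unfold zth
  rw [zY_smul hk]

theorem zlast_smul (K r0 τ : ℝ) {k : ℝ} (hk : 0 < k) (s : ℝ × (ι → ℝ)) :
    zlast i₀ K r0 τ (k • s) = zlast i₀ K r0 τ s := by
  unfold zlast
  rw [zlin_smul K r0 hk, zth_smul 0 16 hk]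

theorem continuous_c01 : Continuous c01 := by
  unfold c01
  fun_prop

theorem continuousAt_zlin {K r0 : ℝ} (hr : 0 < r0) {s : ℝ × (ι → ℝ)} (hs : s ≠ 0) :
    ContinuousAt (H240.zlin i₀ K r0) s := by
  unfold H240.zlin
  refine continuous_c01.continuousAt.comp ?_
  have h1 : ContinuousAt (fun s : ℝ × (ι → ℝ) => K * s.2 i₀) s :=
    (continuous_const.mul (continuous_co i₀)).continuousAt
  have h2 : ContinuousAt (fun s : ℝ × (ι → ℝ) => 2 * r0 * ‖s‖) s :=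
    (continuous_const.mul continuous_norm).continuousAt
  have hn : 0 < ‖s‖ := norm_pos_iff.mpr hs
  exact continuousAt_const.add (h1.div h2 (by positivity))

theorem continuousAt_zth (c K : ℝ) {s : ℝ × (ι → ℝ)} (hs : s ≠ 0) :
    ContinuousAt (zth i₀ c K) s := by
  unfold zth
  exact continuous_c01.continuousAt.comp
    ((continuousAt_const.mul ((continuousAt_zY hs).sub continuousAt_const)).add continuousAt_const)

theorem continuousAt_zlast {K r0 : ℝ} (hr : 0 < r0) (τ : ℝ) {s : ℝ × (ι → ℝ)} (hs : s ≠ 0) :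
    ContinuousAt (fun q : ℝ × (ℝ × (ι → ℝ)) => zlast i₀ K r0 q.1 q.2) (τ, s) := by
  unfold zlast
  have h1 : ContinuousAt (fun q : ℝ × (ℝ × (ι → ℝ)) => zth i₀ 0 16 q.2) (τ, s) :=
    ContinuousAt.comp (g := zth i₀ 0 16) (continuousAt_zth 0 16 hs) continuousAt_snd
  have h2 : ContinuousAt (fun q : ℝ × (ℝ × (ι → ℝ)) => H240.zlin i₀ K r0 q.2) (τ, s) :=
    ContinuousAt.comp (g := H240.zlin i₀ K r0) (continuousAt_zlin hr hs) continuousAt_snd
  exact ((continuousAt_const.sub continuousAt_fst).mul h1).add (continuousAt_fst.mul h2)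

theorem continuousOn_zlast {K r0 : ℝ} (hr : 0 < r0) (S : Set ℝ) :
    ContinuousOn (fun q : ℝ × (ℝ × (ι → ℝ)) => zlast i₀ K r0 q.1 q.2) (S ×ˢ {s | s ≠ 0}) :=
  fun q hq => (continuousAt_zlast hr q.1 hq.2).continuousWithinAt

/-- Both ramps are `1` to the right of the wall. -/
theorem zlast_of_nonneg {K r0 : ℝ} (hr : 0 < r0) (hK : 0 ≤ K) (τ : ℝ) {s : ℝ × (ι → ℝ)}
    (h : 0 ≤ s.2 i₀) : zlast i₀ K r0 τ s = 1 := by
  have h1 : zth i₀ 0 16 s = 1 := by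
    refine c01_of_one_le ?_
    have : 0 ≤ zY i₀ s := div_nonneg h (le_max_of_le_left (zm_nonneg s))
    linarith
  have h2 : H240.zlin i₀ K r0 s = 1 := by
    refine c01_of_one_le ?_
    have : 0 ≤ K * s.2 i₀ / (2 * r0 * ‖s‖) := by positivity
    linarith
  rw [zlast, h1, h2]
  ring

/-- Both ramps vanish for `x i₀ ≤ -1/16`. -/
theorem zlast_support {K r0 : ℝ} (hr : 0 < r0) (hK : 64 * r0 ≤ K) {τ : ℝ} {s : ℝ × (ι → ℝ)} (hs : s ≠ 0) (h : 0 < zlast i₀ K r0 τ s) :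
    -(1 / 16) < kap s i₀ := by
  by_contra hk
  have hk := not_lt.mp hk
  have hz : zY i₀ s ≤ -(1 / 16) := by
    rw [kap_eq_zY] at hk
    have h1 : min (zY i₀ s) 1 ≤ -(1 / 16) := (le_max_right _ _).trans hk
    rcases min_le_iff.mp h1 with h2 | h2
    · exact h2
    · norm_num at h2
  have h1 : zth i₀ 0 16 s = 0 := c01_of_nonpos (by linarith)
  have hn : 0 < ‖s‖ := norm_pos_iff.mpr hs
  have h2 : H240.zlin i₀ K r0 s = 0 := by
    refine c01_of_nonpos ?_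
    -- `p i₀ ≤ -‖s‖ / 32`
    have hm := zm_nonneg (i₀ := i₀) s
    have hns : ‖s‖ ≤ max (2 * zm i₀ s) |s.2 i₀| := by
      rw [Prod.norm_def, Real.norm_eq_abs, norm_eq_max i₀ s.2]
      refine max_le (le_max_of_le_left ?_) (max_le (le_max_of_le_left ?_) (le_max_right _ _))
      · have : |s.1| / 2 ≤ zm i₀ s := le_max_right _ _
        linarith
      · have : ‖Function.update s.2 i₀ 0‖ ≤ zm i₀ s := le_max_left _ _
        linarith
    have hneg : s.2 i₀ < 0 := by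
      by_contra h3
      have : 0 ≤ zY i₀ s := div_nonneg (not_lt.mp h3) (le_max_of_le_left hm)
      linarith
    have hd := zY_den_pos (i₀ := i₀) hs
    have h3 : s.2 i₀ ≤ -(1 / 16) * max (zm i₀ s) (|s.2 i₀| / 4) := by
      rw [zY, div_le_iff₀ hd] at hz
      exact hz
    have h4 : s.2 i₀ ≤ -(‖s‖ / 32) := by
      rcases le_total (2 * zm i₀ s) |s.2 i₀| with h5 | h5
      · rw [max_eq_right h5] at hns
        rw [abs_of_neg hneg] at hns
        linarith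
      · rw [max_eq_left h5] at hns
        have h6 := le_max_left (zm i₀ s) (|s.2 i₀| / 4)
        linarith
    have h5 : K * s.2 i₀ / (2 * r0 * ‖s‖) ≤ -1 := by
      rw [div_le_iff₀ (by positivity)]
      have h6 : K * s.2 i₀ ≤ 64 * r0 * s.2 i₀ := mul_le_mul_of_nonpos_right hK hneg.le
      have h7 : 64 * r0 * s.2 i₀ ≤ 64 * r0 * -(‖s‖ / 32) :=
        mul_le_mul_of_nonneg_left h4 (by positivity)
      linarith
    linarith
  rw [zlast, h1, h2] at h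
  simp at h

/-- Growth of `p i₀ / ‖s‖`. -/
theorem grow_quot {s : ℝ × (ι → ℝ)} (hs : s ≠ 0) (hk : |kap s i₀| < 1 / 8) :
    ∃ U ∈ 𝓝 s, ∀ d ∈ Icc (0 : ℝ) 1, (d = 0 ∨ ‖s.2‖ = s.1) → ∀ y ∈ U, ∀ γ : ℝ, 0 ≤ γ →
      y + γ • zdir i₀ d ∈ U →
      γ / ‖s‖ / 2 ≤ (y + γ • zdir i₀ d).2 i₀ / ‖y + γ • zdir i₀ d‖ - y.2 i₀ / ‖y‖ ∧
      (y + γ • zdir i₀ d).2 i₀ / ‖y + γ • zdir i₀ d‖ - y.2 i₀ / ‖y‖ ≤ 4 / ‖s‖ * γ := by
  have hk' : |kap s i₀| < 1 := by linarith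
  have hn : 0 < ‖s‖ := norm_pos_iff.mpr hs
  obtain ⟨U, hU, H⟩ := kap_add_zdir (abs_lt.mp hk').1 (abs_lt.mp hk').2 hs
  have hp : |s.2 i₀| < ‖s‖ / 8 := by
    have hd : 0 < max |s.1| (2 * ‖s.2‖) := kap_den_pos hs
    have h1 : kap s i₀ = 2 / max |s.1| (2 * ‖s.2‖) * s.2 i₀ := rfl
    rw [h1, abs_mul, abs_of_pos (by positivity), div_mul_eq_mul_div, div_lt_iff₀ hd] at hk
    have h2 : max |s.1| (2 * ‖s.2‖) ≤ 2 * ‖s‖ := by
      refine max_le ?_ ?_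
      · have := norm_fst_le s
        rw [Real.norm_eq_abs] at this
        linarith
      · have := norm_snd_le s
        linarith
    linarith
  have c1 : Continuous fun s : ℝ × (ι → ℝ) => ‖s‖ / 8 - |s.2 i₀| :=
    (continuous_norm.div_const 8).sub (continuous_abs.comp (continuous_co i₀))
  have f1 := c1.continuousAt.eventually (lt_mem_nhds (sub_pos.mpr hp))
  have f2 := (continuous_norm (E := ℝ × (ι → ℝ))).continuousAt.eventually
    (lt_mem_nhds (show ‖s‖ * (3 / 4) < ‖s‖ by linarith))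
  have f3 := (continuous_norm (E := ℝ × (ι → ℝ))).continuousAt.eventually
    (gt_mem_nhds (show ‖s‖ < ‖s‖ * (3 / 2) by linarith))
  refine ⟨U ∩ {y | 0 < ‖y‖ / 8 - |y.2 i₀| ∧ ‖s‖ * (3 / 4) < ‖y‖ ∧ ‖y‖ < ‖s‖ * (3 / 2)},
    inter_mem hU (by
      filter_upwards [f1, f2, f3] with y g1 g2 g3
      exact ⟨g1, g2, g3⟩), ?_⟩
  rintro d ⟨hd0, hd1⟩ hd y ⟨hy, g1, g2, g3⟩ γ hγ ⟨hy', g1', g2', g3'⟩
  have hN := (H d ⟨hd0, hd1⟩ hd y hy γ hy').2
  rw [abs_of_nonneg hγ] at hN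
  have hN1 : |‖y + γ • zdir i₀ d‖ - ‖y‖| ≤ γ := hN.trans (mul_le_of_le_one_left hγ hd1)
  rw [add_zdir_same]
  set n := ‖y‖ with hn_def
  set n' := ‖y + γ • zdir i₀ d‖ with hn'_def
  have n0 : 0 < n := by linarith
  have n0' : 0 < n' := by linarith
  have e : (y.2 i₀ + γ) / n' - y.2 i₀ / n = γ / n' + y.2 i₀ * (n - n') / (n * n') := by
    field_simp
    ring
  rw [e]
  have b1 : |y.2 i₀ * (n - n') / (n * n')| ≤ γ / n' / 8 := by
    rw [abs_div, abs_of_pos (mul_pos n0 n0'), abs_mul, div_le_iff₀ (mul_pos n0 n0')]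
    have h2 : |n - n'| ≤ γ := by rw [abs_sub_comm]; exact hN1
    have h3 : |y.2 i₀| * |n - n'| ≤ n / 8 * γ :=
      mul_le_mul (by linarith) h2 (abs_nonneg _) (by positivity)
    have h4 : γ / n' / 8 * (n * n') = n / 8 * γ := by
      field_simp
    rw [h4]
    exact h3
  obtain ⟨b2, b3⟩ := abs_le.mp b1
  have hγn : 0 ≤ γ / n' := by positivity
  have l1 : γ / ‖s‖ * (2 / 3) ≤ γ / n' := by
    rw [div_mul_eq_mul_div, div_le_div_iff₀ hn n0']
    nlinarith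
  have l2 : γ / n' ≤ 4 / 3 * (γ / ‖s‖) := by
    rw [← mul_div_assoc, div_le_div_iff₀ n0' hn]
    nlinarith
  have l3 : 0 ≤ γ / ‖s‖ := by positivity
  constructor
  · linarith
  · have : 4 / ‖s‖ * γ = 4 * (γ / ‖s‖) := by ring
    rw [this]
    linarith

/-- **The last family of ramps grows** at all the visible points with value in `[1/2, 1)`. -/
theorem grow_zlast {K r0 : ℝ} (hr : 0 < r0) (hK : 64 * r0 ≤ K) {τ₀ : ℝ}
    (hτ₀ : τ₀ ∈ Icc (0 : ℝ) 1) {s : ℝ × (ι → ℝ)} (hs : s ≠ 0) (hle : ‖s.2‖ ≤ s.1)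
    (h0 : 1 / 2 ≤ zlast i₀ K r0 τ₀ s) (h1 : zlast i₀ K r0 τ₀ s < 1) :
    Grow i₀ (Icc (0 : ℝ) 1) (zlast i₀ K r0) τ₀ s (1 / ‖s‖)
      ((640 + 2 * K / r0) / ‖s‖) := by
  have hn : 0 < ‖s‖ := norm_pos_iff.mpr hs
  have hKp : 0 < K := by linarith
  have hns := norm_visible hs hle
  -- `p i₀ < 0`
  have hneg : s.2 i₀ < 0 := by
    by_contra h
    rw [zlast_of_nonneg hr hKp.le τ₀ (not_lt.mp h)] at h1
    exact lt_irrefl _ h1
  have hkap : -(1 / 16) < kap s i₀ := zlast_support hr hK hs (by linarith)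
  have hkap0 : kap s i₀ ≤ 0 := by
    rw [kap_apply i₀]
    exact div_nonpos_of_nonpos_of_nonneg hneg.le (le_max_of_le_right (abs_nonneg _))
  have hk8 : |kap s i₀| < 1 / 8 := by rw [abs_lt]; constructor <;> linarith
  have hk1 : |kap s i₀| < 1 := by linarith
  -- values at `s`
  have hzm := abs_lt_zm hs hk1
  have hz0 : 0 < zm i₀ s := (abs_nonneg _).trans_lt hzm
  have hzYk : zY i₀ s = s.2 i₀ / zm i₀ s := by
    rw [zY, max_eq_left (by linarith [abs_nonneg (s.2 i₀)])]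
  have hzm1 : ‖s‖ / 2 ≤ zm i₀ s := by
    have : |s.1| / 2 ≤ zm i₀ s := le_max_right _ _
    rw [abs_of_pos (pos_fst hs hle)] at this
    rw [hns]
    exact this
  have hzm2 : zm i₀ s ≤ ‖s‖ := by
    refine max_le ((norm_update_le i₀ s.2).trans (norm_snd_le s)) ?_
    have := norm_fst_le s
    rw [Real.norm_eq_abs] at this
    have := abs_nonneg s.1
    linarith
  have hzneg : zY i₀ s < 0 := by rw [hzYk]; exact div_neg_of_neg_of_pos hneg hz0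
  set q := s.2 i₀ / ‖s‖ with hq
  have hqneg : q < 0 := div_neg_of_neg_of_pos hneg hn
  have hqz : 2 * q ≤ zY i₀ s := by
    -- `zY = p / zm ≥ p / (‖s‖/2)`
    rw [hzYk, hq, ← mul_div_assoc, div_le_div_iff₀ hn hz0]
    nlinarith
  -- both arguments
  have harg2 : K * s.2 i₀ / (2 * r0 * ‖s‖) = K / (2 * r0) * q := by
    rw [hq]; field_simp
  -- `-1/32 ≤ zY s`
  have hA : -(1 / 32) ≤ zY i₀ s := by
    by_contra hA
    have hA := not_le.mp hA
    have a1 : zth i₀ 0 16 s < 1 / 2 := by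
      unfold zth
      rcases le_total (16 * (zY i₀ s - 0) + 1) 0 with h2 | h2
      · rw [c01_of_nonpos h2]; norm_num
      · rw [c01_of_mem h2 (by linarith)]; linarith
    have a2 : H240.zlin i₀ K r0 s < 1 / 2 := by
      unfold H240.zlin
      rw [harg2]
      have h3 : q < -(1 / 64) := by linarith
      have h4 : 32 ≤ K / (2 * r0) := by rw [le_div_iff₀ (by positivity)]; linarith
      have h5 : K / (2 * r0) * q ≤ 32 * q := mul_le_mul_of_nonpos_right h4 hqneg.le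
      rcases le_total (1 + K / (2 * r0) * q) 0 with h2 | h2
      · rw [c01_of_nonpos h2]; norm_num
      · rw [c01_of_mem h2 (by linarith)]; linarith
    have h5 : 0 ≤ 1 - τ₀ := by linarith [hτ₀.2]
    have h6 : zlast i₀ K r0 τ₀ s < 1 / 2 := by
      unfold zlast
      rcases h5.eq_or_lt with h7 | h7
      · have : τ₀ = 1 := by linarith
        rw [← h7, this]
        linarith
      · have := mul_lt_mul_of_pos_left a1 h7
        have := mul_le_mul_of_nonneg_left a2.le hτ₀.1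
        linarith
    linarith
  -- first ramp
  have r1 : 0 < zth i₀ 0 16 s := by
    unfold zth
    rw [c01_of_mem (by linarith) (by linarith)]
    linarith
  have r1' : zth i₀ 0 16 s < 1 := by
    unfold zth
    rw [c01_of_mem (by linarith) (by linarith)]
    linarith
  obtain ⟨U₁, hU₁, H₁⟩ := grow_zth (i₀ := i₀) (S := Icc (0 : ℝ) 1) (c := fun _ : ℝ => 0)
    (K := fun _ => 16) (τ₀ := τ₀) continuousWithinAt_const continuousWithinAt_const
    (by norm_num) hs hle (abs_lt.mp hk1).1 r1 r1'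
  obtain ⟨U₂, hU₂, H₂⟩ := grow_quot hs hk8
  -- second ramp
  have mono2 : ∀ y y' : ℝ × (ι → ℝ), y.2 i₀ / ‖y‖ ≤ y'.2 i₀ / ‖y'‖ →
      0 ≤ H240.zlin i₀ K r0 y' - H240.zlin i₀ K r0 y ∧
      H240.zlin i₀ K r0 y' - H240.zlin i₀ K r0 y ≤
        K / (2 * r0) * (y'.2 i₀ / ‖y'‖ - y.2 i₀ / ‖y‖) := by
    intro y y' h
    have e : ∀ y : ℝ × (ι → ℝ), K * y.2 i₀ / (2 * r0 * ‖y‖) = K / (2 * r0) * (y.2 i₀ / ‖y‖) :=
      fun y => by rw [mul_div_mul_comm]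
    have hc : 0 ≤ K / (2 * r0) := by positivity
    have h2 := mul_le_mul_of_nonneg_left h hc
    unfold H240.zlin
    rw [e, e]
    constructor
    · exact sub_nonneg.mpr (c01_mono (by linarith))
    · refine (c01_sub_le (by linarith)).trans ?_
      linarith
  have hC : (640 + 2 * K / r0) / ‖s‖ = 640 / ‖s‖ + 2 * K / r0 / ‖s‖ := by rw [add_div]
  have hc2 : ∀ γ : ℝ, 0 ≤ γ → K / (2 * r0) * (4 / ‖s‖ * γ) = 2 * K / r0 / ‖s‖ * γ := by
    intro γ _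
    field_simp
    ring
  have hmem : ∀ᶠ τ in 𝓝[Icc (0 : ℝ) 1] τ₀, τ ∈ Icc (0 : ℝ) 1 := self_mem_nhdsWithin
  by_cases hB : 0 < H240.zlin i₀ K r0 s
  · -- the second ramp is strictly between `0` and `1`
    have b0 : 0 < 1 + K / (2 * r0) * q := by
      have := pos_of_c01_pos hB
      rwa [harg2] at this
    have b1 : 1 + K / (2 * r0) * q < 1 := by
      have : K / (2 * r0) * q < 0 := mul_neg_of_pos_of_neg (by positivity) hqneg
      linarith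
    have cq : ContinuousAt (fun s : ℝ × (ι → ℝ) => 1 + K / (2 * r0) * (s.2 i₀ / ‖s‖)) s :=
      continuousAt_const.add (continuousAt_const.mul
        ((continuous_co i₀).continuousAt.div continuous_norm.continuousAt hn.ne'))
    have f1 := cq.eventually (lt_mem_nhds b0)
    have f2 := cq.eventually (gt_mem_nhds b1)
    refine ⟨U₁ ∩ U₂ ∩ {y | 0 < 1 + K / (2 * r0) * (y.2 i₀ / ‖y‖) ∧
      1 + K / (2 * r0) * (y.2 i₀ / ‖y‖) < 1}, inter_mem (inter_mem hU₁ hU₂) (by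
        filter_upwards [f1, f2] with y g1 g2
        exact ⟨g1, g2⟩), ?_⟩
    filter_upwards [hmem, H₁] with τ hτ H₁ d hd hd' y hy γ hγ hyγ
    obtain ⟨a1, a2⟩ := H₁ d hd hd' y hy.1.1 γ hγ hyγ.1.1
    obtain ⟨q1, q2⟩ := H₂ d hd hd' y hy.1.2 γ hγ hyγ.1.2
    have hγs : 0 ≤ γ / ‖s‖ / 2 := by positivity
    obtain ⟨m1, m2⟩ := mono2 y (y + γ • zdir i₀ d) (by linarith)
    have e2 : H240.zlin i₀ K r0 (y + γ • zdir i₀ d) - H240.zlin i₀ K r0 y =
        K / (2 * r0) * ((y + γ • zdir i₀ d).2 i₀ / ‖y + γ • zdir i₀ d‖ - y.2 i₀ / ‖y‖) := by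
      unfold H240.zlin
      have e : ∀ y : ℝ × (ι → ℝ), K * y.2 i₀ / (2 * r0 * ‖y‖) =
        K / (2 * r0) * (y.2 i₀ / ‖y‖) := fun y => by rw [mul_div_mul_comm]
      rw [e, e, c01_of_mem hy.2.1.le hy.2.2.le, c01_of_mem hyγ.2.1.le hyγ.2.2.le]
      ring
    have h32 : 32 ≤ K / (2 * r0) := by rw [le_div_iff₀ (by positivity)]; linarith
    have low2 : 16 / ‖s‖ * γ ≤
        H240.zlin i₀ K r0 (y + γ • zdir i₀ d) - H240.zlin i₀ K r0 y := by
      rw [e2]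
      calc 16 / ‖s‖ * γ = 32 * (γ / ‖s‖ / 2) := by ring
        _ ≤ K / (2 * r0) * (γ / ‖s‖ / 2) := mul_le_mul_of_nonneg_right h32 hγs
        _ ≤ _ := mul_le_mul_of_nonneg_left q1 (by positivity)
    have up2 : H240.zlin i₀ K r0 (y + γ • zdir i₀ d) - H240.zlin i₀ K r0 y ≤
        2 * K / r0 / ‖s‖ * γ := by
      rw [← hc2 γ hγ]
      exact m2.trans (mul_le_mul_of_nonneg_left q2 (by positivity))
    have h5 : 0 ≤ 1 - τ := by linarith [hτ.2]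
    have hg0 : 0 ≤ γ / ‖s‖ := by positivity
    have e : zlast i₀ K r0 τ (y + γ • zdir i₀ d) - zlast i₀ K r0 τ y =
        (1 - τ) * (zth i₀ 0 16 (y + γ • zdir i₀ d) - zth i₀ 0 16 y) +
        τ * (H240.zlin i₀ K r0 (y + γ • zdir i₀ d) - H240.zlin i₀ K r0 y) := by
      unfold zlast
      ring
    rw [e]
    constructor
    · have c1 := mul_le_mul_of_nonneg_left a1 h5
      have c2 := mul_le_mul_of_nonneg_left low2 hτ.1
      have c3 : (1 - τ) * (16 / 4 / ‖s‖ * γ) + τ * (16 / ‖s‖ * γ) =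
        (4 + 12 * τ) * (γ / ‖s‖) := by ring
      have c4 : 1 / ‖s‖ * γ = 1 * (γ / ‖s‖) := by ring
      have c5 : 1 * (γ / ‖s‖) ≤ (4 + 12 * τ) * (γ / ‖s‖) :=
        mul_le_mul_of_nonneg_right (by linarith [hτ.1]) hg0
      linarith
    · have c1 := mul_le_mul_of_nonneg_left a2 h5
      have c2 := mul_le_mul_of_nonneg_left up2 hτ.1
      have hKr : 0 ≤ 2 * K / r0 / ‖s‖ * γ := by positivity
      have c3 : (1 - τ) * (40 * 16 / ‖s‖ * γ) ≤ 640 / ‖s‖ * γ := by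
        have : 0 ≤ 640 / ‖s‖ * γ := by positivity
        have h6 : (1 - τ) * (640 / ‖s‖ * γ) ≤ 1 * (640 / ‖s‖ * γ) :=
          mul_le_mul_of_nonneg_right (by linarith [hτ.1]) this
        calc _ = (1 - τ) * (640 / ‖s‖ * γ) := by ring
          _ ≤ _ := h6
          _ = _ := one_mul _
      have c4 : τ * (2 * K / r0 / ‖s‖ * γ) ≤ 2 * K / r0 / ‖s‖ * γ :=
        mul_le_of_le_one_left hKr hτ.2
      rw [hC, add_mul]
      linarith
  · -- the second ramp vanishes, `τ₀ ≤ 1/2`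
    have hB0 : H240.zlin i₀ K r0 s = 0 :=
      le_antisymm (not_lt.mp hB) (zlin_nonneg K r0 s)
    have ht : τ₀ ≤ 1 / 2 := by
      unfold zlast at h0
      rw [hB0, mul_zero, add_zero] at h0
      have h5 : 0 ≤ 1 - τ₀ := by linarith [hτ₀.2]
      have := mul_le_mul_of_nonneg_left r1'.le h5
      linarith
    have ht' : ∀ᶠ τ in 𝓝[Icc (0 : ℝ) 1] τ₀, τ < 3 / 4 :=
      (continuousWithinAt_id (s := Icc (0 : ℝ) 1) (x := τ₀)).eventually
        (gt_mem_nhds (by show τ₀ < 3 / 4; linarith))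
    refine ⟨U₁ ∩ U₂, inter_mem hU₁ hU₂, ?_⟩
    filter_upwards [hmem, ht', H₁] with τ hτ hτ' H₁ d hd hd' y hy γ hγ hyγ
    obtain ⟨a1, a2⟩ := H₁ d hd hd' y hy.1 γ hγ hyγ.1
    obtain ⟨q1, q2⟩ := H₂ d hd hd' y hy.2 γ hγ hyγ.2
    have hγs : 0 ≤ γ / ‖s‖ / 2 := by positivity
    obtain ⟨m1, m2⟩ := mono2 y (y + γ • zdir i₀ d) (by linarith)
    have up2 : H240.zlin i₀ K r0 (y + γ • zdir i₀ d) - H240.zlin i₀ K r0 y ≤
        2 * K / r0 / ‖s‖ * γ := by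
      rw [← hc2 γ hγ]
      exact m2.trans (mul_le_mul_of_nonneg_left q2 (by positivity))
    have h5 : 0 ≤ 1 - τ := by linarith [hτ.2]
    have hg0 : 0 ≤ γ / ‖s‖ := by positivity
    have e : zlast i₀ K r0 τ (y + γ • zdir i₀ d) - zlast i₀ K r0 τ y =
        (1 - τ) * (zth i₀ 0 16 (y + γ • zdir i₀ d) - zth i₀ 0 16 y) +
        τ * (H240.zlin i₀ K r0 (y + γ • zdir i₀ d) - H240.zlin i₀ K r0 y) := by
      unfold zlast
      ring
    rw [e]
    constructor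
    · have c1 := mul_le_mul_of_nonneg_left a1 h5
      have c2 := mul_nonneg hτ.1 m1
      have c3 : (1 - τ) * (16 / 4 / ‖s‖ * γ) = (4 * (1 - τ)) * (γ / ‖s‖) := by ring
      have c4 : 1 / ‖s‖ * γ = 1 * (γ / ‖s‖) := by ring
      have c5 : 1 * (γ / ‖s‖) ≤ (4 * (1 - τ)) * (γ / ‖s‖) :=
        mul_le_mul_of_nonneg_right (by linarith) hg0
      linarith
    · have c1 := mul_le_mul_of_nonneg_left a2 h5
      have c2 := mul_le_mul_of_nonneg_left up2 hτ.1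
      have hKr : 0 ≤ 2 * K / r0 / ‖s‖ * γ := by positivity
      have c3 : (1 - τ) * (40 * 16 / ‖s‖ * γ) ≤ 640 / ‖s‖ * γ := by
        have : 0 ≤ 640 / ‖s‖ * γ := by positivity
        have h6 : (1 - τ) * (640 / ‖s‖ * γ) ≤ 1 * (640 / ‖s‖ * γ) :=
          mul_le_mul_of_nonneg_right (by linarith [hτ.1]) this
        calc _ = (1 - τ) * (640 / ‖s‖ * γ) := by ring
          _ ≤ _ := h6
          _ = _ := one_mul _
      have c4 : τ * (2 * K / r0 / ‖s‖ * γ) ≤ 2 * K / r0 / ‖s‖ * γ :=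
        mul_le_of_le_one_left hKr hτ.2
      rw [hC, add_mul]
      linarith

end Vale.Agent.P268.T.H312
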