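import Vale.Agent.P268.T.H293.ZipDef
import Vale.Agent.P268.T.H312.Fronts

/-!
# P268, topological half: the front coordinate `zY` of the ZIP

The properties (Y1)-(Y7) and (N) of `zY` (see `T/H293/ZipDef.lean`).
-/

set_option linter.unusedSectionVars false

namespace Vale.Agent.P268.T.H312

open Set Filter Topology Metric Z293

variable {ι : Type*} [Fintype ι] [DecidableEq ι]

theorem zm_eq (i₀ : ι) (s : ℝ × (ι → ℝ)) : zm i₀ s = max (rst i₀ s.2) (|s.1| / 2) := rfl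

theorem zm_nonneg (i₀ : ι) (s : ℝ × (ι → ℝ)) : 0 ≤ zm i₀ s :=
  le_max_of_le_left (norm_nonneg _)

/-- (Y1) -/
theorem zden_pos (i₀ : ι) {s : ℝ × (ι → ℝ)} (hs : s ≠ 0) :
    0 < max (zm i₀ s) (|s.2 i₀| / 4) := by
  by_contra h0
  have h1 : zm i₀ s ≤ 0 := (le_max_left _ _).trans (not_lt.mp h0)
  have h2 : |s.2 i₀| / 4 ≤ 0 := (le_max_right _ _).trans (not_lt.mp h0)
  have h3 : rst i₀ s.2 ≤ 0 := (le_max_left _ _).trans h1
  have h4 : |s.1| / 2 ≤ 0 := (le_max_right _ _).trans h1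
  have h5 : ‖s.2‖ ≤ 0 := by
    rw [norm_eq_max i₀]
    exact max_le (by linarith) h3
  have h6 := kap_den_pos hs
  have h7 : max |s.1| (2 * ‖s.2‖) ≤ 0 := max_le (by linarith) (by linarith)
  linarith

theorem continuous_rst (i₀ : ι) : Continuous fun s : ℝ × (ι → ℝ) => rst i₀ s.2 := by
  unfold rst
  exact (continuous_snd.update i₀ continuous_const).norm

theorem continuous_zm (i₀ : ι) : Continuous (zm i₀ : ℝ × (ι → ℝ) → ℝ) := by
  have h := continuous_rst i₀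
  show Continuous fun s : ℝ × (ι → ℝ) => max (rst i₀ s.2) (|s.1| / 2)
  fun_prop

/-- (Y2) -/
theorem continuousAt_zY (i₀ : ι) {s : ℝ × (ι → ℝ)} (hs : s ≠ 0) :
    ContinuousAt (zY i₀ : ℝ × (ι → ℝ) → ℝ) s := by
  have h := continuous_zm i₀
  have h1 : Continuous fun s : ℝ × (ι → ℝ) => max (zm i₀ s) (|s.2 i₀| / 4) := by fun_prop
  have h2 : Continuous fun s : ℝ × (ι → ℝ) => s.2 i₀ := by fun_prop
  exact h2.continuousAt.div h1.continuousAt (zden_pos i₀ hs).ne'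

theorem rst_smul (i₀ : ι) {k : ℝ} (hk : 0 ≤ k) (p : ι → ℝ) : rst i₀ (k • p) = k * rst i₀ p := by
  have h : Function.update (k • p) i₀ 0 = k • Function.update p i₀ 0 := by
    funext i
    by_cases hi : i = i₀
    · subst hi; simp
    · simp [Function.update_of_ne hi]
  rw [rst, rst, h, norm_smul, Real.norm_eq_abs, abs_of_nonneg hk]

theorem zm_smul (i₀ : ι) {k : ℝ} (hk : 0 ≤ k) (s : ℝ × (ι → ℝ)) : zm i₀ (k • s) = k * zm i₀ s := by
  rw [zm_eq, zm_eq, Prod.smul_snd, rst_smul i₀ hk, Prod.smul_fst, smul_eq_mul, abs_mul,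
    abs_of_nonneg hk, mul_max_of_nonneg _ _ hk, mul_div_assoc]

/-- (Y3) -/
theorem zY_smul (i₀ : ι) {k : ℝ} (hk : 0 < k) (s : ℝ × (ι → ℝ)) : zY i₀ (k • s) = zY i₀ s := by
  unfold zY
  rw [zm_smul i₀ hk.le, Prod.smul_snd, Pi.smul_apply, smul_eq_mul, abs_mul, abs_of_pos hk,
    mul_div_assoc k |s.2 i₀|, ← mul_max_of_nonneg _ _ hk.le, mul_div_mul_left _ _ hk.ne']

/-- `kap s i` in terms of `zm`. -/
theorem kap_eq_zm (i₀ : ι) (s : ℝ × (ι → ℝ)) (i : ι) :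
    kap s i = s.2 i / max (zm i₀ s) |s.2 i₀| := by
  have h : max |s.1| (2 * ‖s.2‖) = 2 * max (zm i₀ s) |s.2 i₀| := by
    rw [norm_eq_max i₀ s.2, zm_eq, mul_max_of_nonneg _ _ (by norm_num : (0 : ℝ) ≤ 2),
      mul_max_of_nonneg _ _ (by norm_num : (0 : ℝ) ≤ 2),
      mul_max_of_nonneg _ _ (by norm_num : (0 : ℝ) ≤ 2), mul_div_cancel₀ _ (two_ne_zero),
      max_comm (2 * |s.2 i₀|), ← max_assoc, max_comm |s.1|]
  rw [kap, Pi.smul_apply, smul_eq_mul, h, div_mul_eq_mul_div, mul_div_mul_left _ _ two_ne_zero]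

/-- (Y4) -/
theorem kap_eq_zY (i₀ : ι) (s : ℝ × (ι → ℝ)) : kap s i₀ = max (-1) (min (zY i₀ s) 1) := by
  by_cases hs : s = 0
  · subst hs
    simp [zY, kap]
  have hd := zden_pos i₀ hs
  have hm := zm_nonneg i₀ s
  rw [kap_eq_zm i₀, zY]
  have hab := abs_nonneg (s.2 i₀)
  rcases le_or_gt |s.2 i₀| (zm i₀ s) with h | h
  · have h4 : |s.2 i₀| / 4 ≤ zm i₀ s := by linarith
    rw [max_eq_left h4] at hd
    obtain ⟨l1, l2⟩ := abs_le.mp h
    rw [max_eq_left h, max_eq_left h4, min_eq_left ((div_le_one hd).mpr l2), max_eq_right]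
    rw [le_div_iff₀ hd]
    linarith
  · have hp : 0 < |s.2 i₀| := hm.trans_lt h
    have hlt : max (zm i₀ s) (|s.2 i₀| / 4) ≤ |s.2 i₀| := max_le h.le (by linarith)
    rw [max_eq_right h.le]
    rcases le_or_gt 0 (s.2 i₀) with h5 | h5
    · rw [abs_of_nonneg h5] at hlt hd hp ⊢
      have e1 : 1 ≤ s.2 i₀ / max (zm i₀ s) (s.2 i₀ / 4) := by
        rw [le_div_iff₀ hd, one_mul]; exact hlt
      rw [div_self hp.ne', min_eq_right e1, max_eq_right (by norm_num)]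
    · rw [abs_of_neg h5] at hlt hd hp ⊢
      have e1 : s.2 i₀ / max (zm i₀ s) (-s.2 i₀ / 4) ≤ -1 := by
        rw [div_le_iff₀ hd]; linarith
      rw [min_eq_left (e1.trans (by norm_num)), max_eq_left e1]
      rw [div_neg, div_self h5.ne]

/-- (Y5) -/
theorem abs_zY_le (i₀ : ι) (s : ℝ × (ι → ℝ)) : |zY i₀ s| ≤ 4 := by
  by_cases hs : s = 0
  · subst hs
    simp [zY]
  have hd := zden_pos i₀ hs
  rw [zY, abs_div, abs_of_pos hd, div_le_iff₀ hd]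
  have := le_max_right (zm i₀ s) (|s.2 i₀| / 4)
  linarith

/-- (Y6), first part -/
theorem c01_zY (i₀ : ι) {K : ℝ} (hK : 1 ≤ K) (s : ℝ × (ι → ℝ)) :
    c01 (K * (zY i₀ s - 1 / 4) + 1) = c01 (K * (kap s i₀ - 1 / 4) + 1) := by
  rw [kap_eq_zY]
  rcases le_total (zY i₀ s) (-1) with h | h
  · have e1 : min (zY i₀ s) 1 = zY i₀ s := min_eq_left (h.trans (by norm_num))
    rw [e1, max_eq_left h]
    unfold c01
    have h1 : K * (zY i₀ s - 1 / 4) + 1 ≤ 0 := by nlinarith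
    have h2 : K * (-1 - 1 / 4 : ℝ) + 1 ≤ 0 := by nlinarith
    rw [max_eq_left ((min_le_left _ _).trans h1), max_eq_left ((min_le_left _ _).trans h2)]
  · rcases le_total (zY i₀ s) 1 with h1 | h1
    · rw [min_eq_left h1, max_eq_right h]
    · rw [min_eq_right h1, max_eq_right (by norm_num : (-1 : ℝ) ≤ 1)]
      unfold c01
      have h2 : 1 ≤ K * (zY i₀ s - 1 / 4) + 1 := by nlinarith
      have h3 : 1 ≤ K * (1 - 1 / 4 : ℝ) + 1 := by nlinarith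
      rw [min_eq_right h2, min_eq_right h3]

/-- (Y6), second part -/
theorem zth_five (i₀ : ι) {K : ℝ} (hK : 1 ≤ K) (s : ℝ × (ι → ℝ)) : zth i₀ 5 K s = 0 := by
  unfold zth c01
  have h := (abs_le.mp (abs_zY_le i₀ s)).2
  have h1 : K * (zY i₀ s - 5) + 1 ≤ 0 := by nlinarith
  exact max_eq_left ((min_le_left _ _).trans h1)

/-! ### The direction `(-d, single i₀ 1)` -/

/-- The direction. -/
noncomputable def vb (i₀ : ι) (d : ℝ) : ℝ × (ι → ℝ) := (-d, Pi.single i₀ 1)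

theorem add_vb_fst (i₀ : ι) (d : ℝ) (s : ℝ × (ι → ℝ)) (l : ℝ) :
    (s + l • vb i₀ d).1 = s.1 - l * d := by
  show s.1 + l * (-d) = _
  ring

theorem add_vb_snd (i₀ : ι) (d : ℝ) (s : ℝ × (ι → ℝ)) (l : ℝ) :
    (s + l • vb i₀ d).2 = (s + l • eb i₀).2 := by
  simp [vb, eb]

theorem add_vb_self (i₀ : ι) (d : ℝ) (s : ℝ × (ι → ℝ)) (l : ℝ) :
    (s + l • vb i₀ d).2 i₀ = s.2 i₀ + l := by
  rw [add_vb_snd, add_eb_self]

theorem rst_add_vb (i₀ : ι) (d : ℝ) (s : ℝ × (ι → ℝ)) (l : ℝ) :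
    rst i₀ (s + l • vb i₀ d).2 = rst i₀ s.2 := by
  rw [add_vb_snd, rst_add_eb]

/-- (Y7): growth of `zY` near the visible points with `p i₀ > 0`. -/
theorem zY_growth (i₀ : ι) {s : ℝ × (ι → ℝ)} (h : ‖s.2‖ ≤ s.1) (h0 : 0 < s.2 i₀) :
    ∃ L : ℝ, 0 ≤ L ∧ ∃ U ∈ 𝓝 s, ∀ d ∈ Icc (0 : ℝ) 1, ∀ y ∈ U, ∀ γ : ℝ, 0 ≤ γ →
      y + γ • ((-d, Pi.single i₀ 1) : ℝ × (ι → ℝ)) ∈ U →
      γ / ‖s‖ / 2 ≤ zY i₀ (y + γ • ((-d, Pi.single i₀ 1) : ℝ × (ι → ℝ))) - zY i₀ y ∧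
      |zY i₀ (y + γ • ((-d, Pi.single i₀ 1) : ℝ × (ι → ℝ))) - zY i₀ y| ≤ L * γ := by
  have hp : s.2 i₀ ≤ ‖s.2‖ := (le_abs_self _).trans (norm_le_pi_norm s.2 i₀)
  have ha : 0 < s.1 := by linarith
  have hs : s ≠ 0 := fun h => by rw [h] at ha; exact lt_irrefl _ ha
  have hn : 0 < ‖s‖ := norm_pos_iff.mpr hs
  have hns : ‖s‖ = s.1 := by
    rw [Prod.norm_def, Real.norm_eq_abs, abs_of_pos ha, max_eq_left h]
  have c3 : Continuous fun s : ℝ × (ι → ℝ) => ‖s‖ := continuous_norm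
  have c4 : Continuous fun s : ℝ × (ι → ℝ) => s.2 i₀ := by fun_prop
  have f1 := continuous_fst.continuousAt.eventually (lt_mem_nhds (show s.1 * (3 / 4) < s.1 by
    linarith))
  have f2 := c4.continuousAt.eventually (lt_mem_nhds h0)
  have f3 := c3.continuousAt.eventually (gt_mem_nhds (show ‖s‖ < ‖s‖ * (5 / 4) by linarith))
  have hU : {y : ℝ × (ι → ℝ) | s.1 * (3 / 4) < y.1 ∧ 0 < y.2 i₀ ∧ ‖y‖ < ‖s‖ * (5 / 4)} ∈ 𝓝 s := by
    filter_upwards [f1, f2, f3] with y g1 g2 g3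
    exact ⟨g1, g2, g3⟩
  refine ⟨4 / s.1 + 16 / s.1, by positivity, _, hU, ?_⟩
  rintro d ⟨hd0, hd1⟩ y ⟨g1, g2, g3⟩ γ hγ ⟨g1', g2', g3'⟩
  rw [← vb] at g1' g2' g3' ⊢
  rw [add_vb_fst] at g1'
  have hy2 : |y.2 i₀| = y.2 i₀ := abs_of_pos g2
  have hyn : y.2 i₀ ≤ ‖y‖ := (le_abs_self _).trans ((norm_le_pi_norm y.2 i₀).trans (norm_snd_le y))
  have hyn' : (y + γ • vb i₀ d).2 i₀ ≤ ‖y + γ • vb i₀ d‖ :=
    (le_abs_self _).trans ((norm_le_pi_norm (y + γ • vb i₀ d).2 i₀).trans (norm_snd_le _))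
  have hz1 : |y.1| / 2 ≤ zm i₀ y := le_max_right _ _
  have hz2 : |(y + γ • vb i₀ d).1| / 2 ≤ zm i₀ (y + γ • vb i₀ d) := le_max_right _ _
  have hab : |y.1| = y.1 := abs_of_pos (by linarith)
  have hab' : |(y + γ • vb i₀ d).1| = y.1 - γ * d := by
    rw [add_vb_fst, abs_of_pos (by linarith)]
  rw [hab] at hz1
  rw [hab'] at hz2
  -- `zY` is `p i₀ / zm`
  have e1 : zY i₀ y = y.2 i₀ / zm i₀ y := by
    rw [zY, max_eq_left]
    rw [hy2]
    linarith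
  have e2 : zY i₀ (y + γ • vb i₀ d) = (y.2 i₀ + γ) / zm i₀ (y + γ • vb i₀ d) := by
    rw [zY, max_eq_left, add_vb_self]
    rw [add_vb_self] at g2' hyn' ⊢
    rw [abs_of_pos g2']
    linarith
  -- comparison of the denominators
  have m1 : zm i₀ (y + γ • vb i₀ d) ≤ zm i₀ y := by
    rw [zm_eq, zm_eq, rst_add_vb, hab', hab]
    have : 0 ≤ γ * d := mul_nonneg hγ hd0
    exact max_le_max le_rfl (by linarith)
  have m2 : zm i₀ y ≤ zm i₀ (y + γ • vb i₀ d) + γ := by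
    rw [zm_eq, zm_eq, rst_add_vb, hab', hab]
    have h1 : γ * d ≤ γ := mul_le_of_le_one_right hγ hd1
    refine max_le ?_ ?_
    · have := le_max_left (rst i₀ y.2) ((y.1 - γ * d) / 2)
      linarith
    · have := le_max_right (rst i₀ y.2) ((y.1 - γ * d) / 2)
      linarith
  set z := zm i₀ y with hz
  set z' := zm i₀ (y + γ • vb i₀ d) with hz'
  have p1 : 0 < z' := by linarith
  have p0 : 0 < z := by linarith
  have q1 : s.1 / 4 < z' := by linarith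
  have q0 : s.1 / 4 < z := by linarith
  have zle : z ≤ 2 * ‖s‖ := by
    rw [hz, zm_eq]
    refine max_le ?_ ?_
    · have h1 : rst i₀ y.2 ≤ ‖y.2‖ := by rw [norm_eq_max i₀ y.2]; exact le_max_right _ _
      have h2 := norm_snd_le y
      linarith
    · have h2 := norm_fst_le y
      rw [Real.norm_eq_abs] at h2
      have h3 := abs_nonneg y.1
      linarith
  rw [e1, e2]
  have lo : γ / ‖s‖ / 2 ≤ (y.2 i₀ + γ) / z' - y.2 i₀ / z := by
    have h1 : (y.2 i₀ + γ) / z ≤ (y.2 i₀ + γ) / z' :=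
      div_le_div_of_nonneg_left (by linarith) p1 m1
    have h2 : (y.2 i₀ + γ) / z - y.2 i₀ / z = γ / z := by ring
    have h3 : γ / ‖s‖ / 2 ≤ γ / z := by
      rw [div_div, mul_comm]
      exact div_le_div_of_nonneg_left hγ p0 zle
    linarith
  refine ⟨lo, ?_⟩
  rw [abs_of_nonneg (le_trans (by positivity) lo)]
  have h1 : (y.2 i₀ + γ) / z' - y.2 i₀ / z = γ / z' + y.2 i₀ * (z - z') / (z * z') := by
    field_simp
    ring
  rw [h1]
  have h2 : γ / z' ≤ 4 / s.1 * γ := by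
    rw [div_le_iff₀ p1]
    have : 4 / s.1 * γ * z' = γ * (z' * 4 / s.1) := by ring
    rw [this]
    have h3 : 1 ≤ z' * 4 / s.1 := by
      rw [le_div_iff₀ ha]; linarith
    calc γ = γ * 1 := (mul_one _).symm
      _ ≤ _ := mul_le_mul_of_nonneg_left h3 hγ
  have h3 : y.2 i₀ * (z - z') / (z * z') ≤ 16 / s.1 * γ := by
    rw [div_le_iff₀ (mul_pos p0 p1)]
    have h4 : y.2 i₀ ≤ 4 * z := by linarith
    have h5 : z - z' ≤ γ := by linarith
    have h6 : y.2 i₀ * (z - z') ≤ 4 * z * γ :=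
      mul_le_mul h4 h5 (by linarith) (by linarith)
    have h7 : 4 * z * γ ≤ 16 / s.1 * γ * (z * z') := by
      have h8 : 16 / s.1 * γ * (z * z') = 4 * z * γ * (z' * 4 / s.1) := by ring
      rw [h8]
      have h9 : 1 ≤ z' * 4 / s.1 := by
        rw [le_div_iff₀ ha]; linarith
      calc 4 * z * γ = 4 * z * γ * 1 := (mul_one _).symm
        _ ≤ _ := mul_le_mul_of_nonneg_left h9 (by positivity)
    linarith
  linarith

/-- Two-sided form of (Y7). -/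
theorem zY_growth' (i₀ : ι) {s : ℝ × (ι → ℝ)} (h : ‖s.2‖ ≤ s.1) (h0 : 0 < s.2 i₀) :
    ∃ L : ℝ, 0 ≤ L ∧ ∃ U ∈ 𝓝 s, ∀ d ∈ Icc (0 : ℝ) 1, ∀ y ∈ U, ∀ γ : ℝ,
      y + γ • ((-d, Pi.single i₀ 1) : ℝ × (ι → ℝ)) ∈ U →
      γ ^ 2 / ‖s‖ / 2 ≤
        γ * (zY i₀ (y + γ • ((-d, Pi.single i₀ 1) : ℝ × (ι → ℝ))) - zY i₀ y) ∧
      |zY i₀ (y + γ • ((-d, Pi.single i₀ 1) : ℝ × (ι → ℝ))) - zY i₀ y| ≤ L * |γ| := by
  obtain ⟨L, hL, U, hU, H⟩ := zY_growth i₀ h h0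
  refine ⟨L, hL, U, hU, fun d hd y hy γ hyγ => ?_⟩
  rcases le_total 0 γ with hγ | hγ
  · obtain ⟨k1, k2⟩ := H d hd y hy γ hγ hyγ
    refine ⟨?_, by rwa [abs_of_nonneg hγ]⟩
    have := mul_le_mul_of_nonneg_left k1 hγ
    calc γ ^ 2 / ‖s‖ / 2 = γ * (γ / ‖s‖ / 2) := by ring
      _ ≤ _ := this
  · have e1 : y + γ • ((-d, Pi.single i₀ 1) : ℝ × (ι → ℝ)) +
        (-γ) • ((-d, Pi.single i₀ 1) : ℝ × (ι → ℝ)) = y := by
      rw [add_assoc, ← add_smul, add_neg_cancel, zero_smul, add_zero]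
    have hγ' : 0 ≤ -γ := by linarith
    obtain ⟨k1, k2⟩ := H d hd _ hyγ (-γ) hγ' (by rw [e1]; exact hy)
    rw [e1] at k1 k2
    refine ⟨?_, by rw [abs_of_nonpos hγ, abs_sub_comm]; exact k2⟩
    have := mul_le_mul_of_nonneg_left k1 hγ'
    calc γ ^ 2 / ‖s‖ / 2 = -γ * (-γ / ‖s‖ / 2) := by ring
      _ ≤ _ := this
      _ = _ := by ring

/-- (N): what does not move in the direction `(-d, single i₀ 1)`. -/
theorem kap_zdir (i₀ : ι) {s : ℝ × (ι → ℝ)} (h : ‖s.2‖ ≤ s.1) (hs : s ≠ 0)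
    (h0 : |kap s i₀| < 1) {d : ℝ} (hd : d ∈ Icc (0 : ℝ) 1) (hds : d = 0 ∨ ‖s.2‖ = s.1) :
    ∃ U ∈ 𝓝 s, ∀ y ∈ U, ∀ γ : ℝ, y + γ • ((-d, Pi.single i₀ 1) : ℝ × (ι → ℝ)) ∈ U →
      (∀ i, i ≠ i₀ → kap (y + γ • ((-d, Pi.single i₀ 1) : ℝ × (ι → ℝ))) i = kap y i) ∧
      |‖y + γ • ((-d, Pi.single i₀ 1) : ℝ × (ι → ℝ))‖ - ‖y‖| ≤ d * |γ| := by
  have hp0 : 0 ≤ s.1 := (norm_nonneg _).trans h
  have ha : 0 < s.1 := by
    rcases hp0.eq_or_lt with h1 | h1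
    · exfalso
      apply hs
      have h2 : s.2 = 0 := norm_le_zero_iff.mp (by rw [h1]; exact h)
      exact Prod.ext h1.symm h2
    · exact h1
  -- at `s`: `|p i₀| < zm`
  have h1 : |s.2 i₀| < zm i₀ s := by
    rw [abs_kap_lt_iff i₀ hs] at h0
    rw [zm_eq]
    have e : max |s.1| (2 * rst i₀ s.2) = 2 * max (rst i₀ s.2) (|s.1| / 2) := by
      rw [mul_max_of_nonneg _ _ (by norm_num : (0 : ℝ) ≤ 2), mul_div_cancel₀ _ (two_ne_zero),
        max_comm]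
    rw [e] at h0
    linarith
  have cz := continuous_zm i₀
  have cr := continuous_rst i₀
  have c1 : Continuous fun s : ℝ × (ι → ℝ) => zm i₀ s - |s.2 i₀| := by fun_prop
  have f1 := c1.continuousAt.eventually (lt_mem_nhds (sub_pos.mpr h1))
  have f2 := continuous_fst.continuousAt.eventually (lt_mem_nhds ha)
  -- the neighbourhood where `zm` is constant in the direction
  obtain ⟨U, hU, HU⟩ : ∃ U ∈ 𝓝 s, ∀ y ∈ U, ∀ γ : ℝ,
      y + γ • vb i₀ d ∈ U → zm i₀ (y + γ • vb i₀ d) = zm i₀ y := by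
    rcases hds with hd0 | hds
    · refine ⟨univ, univ_mem, fun y _ γ _ => ?_⟩
      rw [zm_eq, zm_eq, rst_add_vb, add_vb_fst, hd0, mul_zero, sub_zero]
    · -- `rst = ‖p‖ = u₀`
      have h2 : s.1 / 2 < rst i₀ s.2 := by
        rw [zm_eq, abs_of_pos ha] at h1
        rw [norm_eq_max i₀] at hds
        by_contra h3
        rw [max_eq_right (not_lt.mp h3)] at h1
        have : max |s.2 i₀| (rst i₀ s.2) ≤ s.1 / 2 := max_le h1.le (not_lt.mp h3)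
        linarith
      have c2 : Continuous fun s : ℝ × (ι → ℝ) => rst i₀ s.2 - s.1 / 2 := by fun_prop
      have f3 := c2.continuousAt.eventually (lt_mem_nhds (sub_pos.mpr h2))
      refine ⟨{y | 0 < y.1 ∧ 0 < rst i₀ y.2 - y.1 / 2}, by
        filter_upwards [f2, f3] with y g1 g2
        exact ⟨g1, g2⟩, ?_⟩
      rintro y ⟨g1, g2⟩ γ ⟨g1', g2'⟩
      rw [rst_add_vb] at g2'
      rw [zm_eq, zm_eq, rst_add_vb, abs_of_pos g1, abs_of_pos g1', max_eq_left (by linarith),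
        max_eq_left (by linarith)]
  refine ⟨U ∩ {y | 0 < zm i₀ y - |y.2 i₀| ∧ 0 < y.1}, inter_mem hU (by
    filter_upwards [f1, f2] with y g1 g2
    exact ⟨g1, g2⟩), ?_⟩
  rintro y ⟨hy, g1, g2⟩ γ ⟨hy', g1', g2'⟩
  rw [← vb] at hy' g1' g2' ⊢
  have hz := HU y hy γ hy'
  constructor
  · intro i hi
    rw [kap_eq_zm i₀, kap_eq_zm i₀ y, max_eq_left (by linarith), max_eq_left (by linarith), hz,
      add_vb_snd, add_eb_ne i₀ y γ hi]
  · -- `‖y‖ = max u₀ rst`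
    have e : ∀ y : ℝ × (ι → ℝ), 0 < zm i₀ y - |y.2 i₀| → ‖y‖ = max |y.1| (rst i₀ y.2) := by
      intro y hy
      rw [Prod.norm_def, Real.norm_eq_abs, norm_eq_max i₀ y.2, max_left_comm]
      refine max_eq_right ?_
      refine le_trans (b := zm i₀ y) (by linarith) ?_
      rw [zm_eq]
      refine max_le (le_max_right _ _) (le_max_of_le_left ?_)
      have := abs_nonneg y.1
      linarith
    rw [e _ g1', e _ g1, rst_add_vb]
    refine (abs_max_sub_max_le_abs _ _ _).trans ?_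
    refine (abs_abs_sub_abs_le_abs_sub _ _).trans ?_
    rw [add_vb_fst, show y.1 - γ * d - y.1 = -(d * γ) by ring, abs_neg, abs_mul,
      abs_of_nonneg hd.1]

end Vale.Agent.P268.T.H312
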