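import Vale.Agent.P268.T.H354.Win
import Vale.Agent.P268.T.H293.ZipDef

/-!
# P268, topological half: growth of the front coordinates of the ZIP

(Y7), (Y8), (Y9), (N1), (N2), for the direction `zdir i₀ d = (-d, single i₀ 1)`.
-/

set_option linter.unusedSectionVars false

namespace Vale.Agent.P268.T.H312

open Set Filter Topology Metric Z293

variable {ι : Type*} [Fintype ι] [DecidableEq ι] {i₀ : ι}

theorem pos_fst' {s : ℝ × (ι → ℝ)} (hs : s ≠ 0) (h : ‖s.2‖ ≤ s.1) : 0 < s.1 := by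
  have hp0 : 0 ≤ s.1 := (norm_nonneg _).trans h
  rcases hp0.eq_or_lt with h1 | h1
  · exfalso
    apply hs
    have h2 : s.2 = 0 := norm_le_zero_iff.mp (by rw [h1]; exact h)
    exact Prod.ext h1.symm h2
  · exact h1

theorem norm_zdir_le {d : ℝ} (hd0 : 0 ≤ d) (hd : d ≤ 1) :
    ‖(zdir i₀ d : ℝ × (ι → ℝ))‖ ≤ 1 := by
  have h : ‖(Pi.single i₀ 1 : ι → ℝ)‖ = 1 := by rw [Pi.norm_single, norm_one]
  rw [zdir, Prod.norm_def, h, Real.norm_eq_abs, abs_neg, abs_of_nonneg hd0]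
  exact max_le hd le_rfl

theorem abs_norm_add_zdir {d : ℝ} (hd0 : 0 ≤ d) (hd : d ≤ 1) (y : ℝ × (ι → ℝ)) {γ : ℝ}
    (hγ : 0 ≤ γ) : |‖y + γ • zdir i₀ d‖ - ‖y‖| ≤ γ := by
  have h := abs_norm_sub_norm_le (y + γ • zdir i₀ d) y
  rw [add_sub_cancel_left, norm_smul, Real.norm_eq_abs, abs_of_nonneg hγ] at h
  exact h.trans (mul_le_of_le_one_right hγ (norm_zdir_le hd0 hd))

/-- The algebra of the quotients. -/
theorem quot_alg {x n n' γ q : ℝ} (hn : 0 < n) (hn' : 0 < n') (hγ : 0 ≤ γ)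
    (h1 : |n' - n| ≤ q * γ) (h2 : |x| * q ≤ n * (3 / 5)) :
    γ / n' * (2 / 5) ≤ (x + γ) / n' - x / n ∧ (x + γ) / n' - x / n ≤ γ / n' * (8 / 5) := by
  have e : (x + γ) / n' - x / n = γ / n' + x * (n - n') / (n * n') := by
    field_simp
    ring
  have b1 : |x * (n - n') / (n * n')| ≤ γ / n' * (3 / 5) := by
    rw [abs_div, abs_of_pos (mul_pos hn hn'), abs_mul, div_le_iff₀ (mul_pos hn hn')]
    rw [abs_sub_comm] at h1
    have h3 : |x| * |n - n'| ≤ |x| * (q * γ) := mul_le_mul_of_nonneg_left h1 (abs_nonneg _)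
    have h4 : γ / n' * (3 / 5) * (n * n') = n * (3 / 5) * γ := by
      field_simp
    rw [h4]
    refine h3.trans ?_
    rw [← mul_assoc]
    exact mul_le_mul_of_nonneg_right h2 hγ
  obtain ⟨b2, b3⟩ := abs_le.mp b1
  rw [e]
  constructor <;> linarith

/-- **(Y7)**: growth of `zY` at all the visible points. -/
theorem zY_grow {s : ℝ × (ι → ℝ)} (hs : s ≠ 0) (hle : ‖s.2‖ ≤ s.1) {d : ℝ} (hd0 : 0 ≤ d)
    (hd : d ≤ 1 / 2) : ∃ L : ℝ, ∃ U ∈ 𝓝 s, ∀ y ∈ U, ∀ γ : ℝ, 0 ≤ γ →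
      y + γ • zdir i₀ d ∈ U →
      γ / (4 * ‖s‖) ≤ zY i₀ (y + γ • zdir i₀ d) - zY i₀ y ∧
      zY i₀ (y + γ • zdir i₀ d) - zY i₀ y ≤ L * γ := by
  have ha := pos_fst' hs hle
  have hns : ‖s‖ = s.1 := by
    rw [Prod.norm_def, Real.norm_eq_abs, abs_of_pos ha, max_eq_left hle]
  have f1 := (continuous_fst (X := ℝ) (Y := ι → ℝ)).continuousAt.eventually
    (lt_mem_nhds (show s.1 * (15 / 16) < s.1 by linarith))
  have f3 := (continuous_norm (E := ℝ × (ι → ℝ))).continuousAt.eventually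
    (gt_mem_nhds (show ‖s‖ < s.1 * (17 / 16) by rw [hns]; linarith))
  refine ⟨16 / s.1, {y | s.1 * (15 / 16) < y.1 ∧ ‖y‖ < s.1 * (17 / 16)}, by
    filter_upwards [f1, f3] with y g1 g3
    exact ⟨g1, g3⟩, ?_⟩
  rintro y ⟨g1, g3⟩ γ hγ ⟨g1', g3'⟩
  have hq : ∀ y : ℝ × (ι → ℝ), |y.2 i₀| ≤ ‖y‖ := fun y =>
    (norm_le_pi_norm y.2 i₀).trans (norm_snd_le y)
  have hzl : ∀ y : ℝ × (ι → ℝ), |y.1| / 2 ≤ zm i₀ y := fun y => le_max_right _ _
  have hzu : ∀ y : ℝ × (ι → ℝ), zm i₀ y ≤ ‖y‖ := fun y => by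
    refine max_le ((norm_update_le i₀ y.2).trans (norm_snd_le y)) ?_
    have := norm_fst_le y
    rw [Real.norm_eq_abs] at this
    have := abs_nonneg y.1
    linarith
  have hab : |y.1| = y.1 := abs_of_pos (by linarith)
  have hab' : |(y + γ • zdir i₀ d).1| = y.1 - γ * d := by
    rw [abs_of_pos (by linarith), add_zdir_fst]
  have z1 := hzl y
  have z1' := hzl (y + γ • zdir i₀ d)
  rw [abs_of_pos (show 0 < (y + γ • zdir i₀ d).1 by linarith)] at z1'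
  rw [hab] at z1
  have u1 := hzu y
  have u1' := hzu (y + γ • zdir i₀ d)
  have q1 := hq y
  have q1' := hq (y + γ • zdir i₀ d)
  have e1 : zY i₀ y = y.2 i₀ / zm i₀ y := by
    rw [zY, max_eq_left (by linarith)]
  have e2 : zY i₀ (y + γ • zdir i₀ d) = (y.2 i₀ + γ) / zm i₀ (y + γ • zdir i₀ d) := by
    rw [zY, max_eq_left (by linarith), add_zdir_same]
  have hz0 : 0 < zm i₀ y := by linarith
  have hz0' : 0 < zm i₀ (y + γ • zdir i₀ d) := by linarith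
  have hdiff : |zm i₀ (y + γ • zdir i₀ d) - zm i₀ y| ≤ d / 2 * γ := by
    rw [zm, zm, update_add_zdir, hab', hab]
    refine (abs_max_sub_max_le_max _ _ _ _).trans (max_le ?_ ?_)
    · rw [sub_self, abs_zero]
      positivity
    · rw [show (y.1 - γ * d) / 2 - y.1 / 2 = -(d / 2 * γ) by ring, abs_neg,
        abs_of_nonneg (by positivity)]
  obtain ⟨k1, k2⟩ := quot_alg (x := y.2 i₀) hz0 hz0' hγ hdiff (by
    have h1 : |y.2 i₀| * (d / 2) ≤ (s.1 * (17 / 16)) * (1 / 4) :=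
      mul_le_mul (by linarith) (by linarith) (by linarith) (by linarith)
    linarith)
  rw [e1, e2, hns]
  constructor
  · refine le_trans ?_ k1
    rw [div_mul_eq_mul_div, div_le_div_iff₀ (by positivity) hz0']
    nlinarith
  · refine k2.trans ?_
    rw [div_mul_eq_mul_div, div_mul_eq_mul_div, div_le_div_iff₀ hz0' ha]
    nlinarith

/-- **(Y8)**: growth of `p i₀ / ‖s‖`. -/
theorem quot_grow {s : ℝ × (ι → ℝ)} (hs : s ≠ 0) (hq : |s.2 i₀| ≤ ‖s‖ / 4) {d : ℝ}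
    (hd0 : 0 ≤ d) (hd : d ≤ 1 / 2) : ∃ L : ℝ, ∃ U ∈ 𝓝 s, ∀ y ∈ U, ∀ γ : ℝ, 0 ≤ γ →
      y + γ • zdir i₀ d ∈ U →
      γ / (4 * ‖s‖) ≤ (y + γ • zdir i₀ d).2 i₀ / ‖y + γ • zdir i₀ d‖ - y.2 i₀ / ‖y‖ ∧
      (y + γ • zdir i₀ d).2 i₀ / ‖y + γ • zdir i₀ d‖ - y.2 i₀ / ‖y‖ ≤ L * γ := by
  have hn : 0 < ‖s‖ := norm_pos_iff.mpr hs
  have f1 := (continuous_abs.comp (continuous_co i₀)).continuousAt.eventually
    (gt_mem_nhds (show |s.2 i₀| < ‖s‖ * (5 / 16) by linarith))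
  have f2 := (continuous_norm (E := ℝ × (ι → ℝ))).continuousAt.eventually
    (lt_mem_nhds (show ‖s‖ * (15 / 16) < ‖s‖ by linarith))
  have f3 := (continuous_norm (E := ℝ × (ι → ℝ))).continuousAt.eventually
    (gt_mem_nhds (show ‖s‖ < ‖s‖ * (17 / 16) by linarith))
  refine ⟨16 / ‖s‖, {y | |y.2 i₀| < ‖s‖ * (5 / 16) ∧ ‖s‖ * (15 / 16) < ‖y‖ ∧
    ‖y‖ < ‖s‖ * (17 / 16)}, by
      filter_upwards [f1, f2, f3] with y g1 g2 g3
      exact ⟨g1, g2, g3⟩, ?_⟩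
  rintro y ⟨g1, g2, g3⟩ γ hγ ⟨g1', g2', g3'⟩
  have n0 : 0 < ‖y‖ := by linarith
  have n0' : 0 < ‖y + γ • zdir i₀ d‖ := by linarith
  have hdiff := abs_norm_add_zdir hd0 (show d ≤ 1 by linarith) y hγ (i₀ := i₀)
  obtain ⟨k1, k2⟩ := quot_alg (x := y.2 i₀) n0 n0' hγ (q := 1) (by linarith)
    (by linarith)
  rw [add_zdir_same]
  constructor
  · refine le_trans ?_ k1
    rw [div_mul_eq_mul_div, div_le_div_iff₀ (by positivity) n0']
    nlinarith
  · refine k2.trans ?_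
    rw [div_mul_eq_mul_div, div_mul_eq_mul_div, div_le_div_iff₀ n0' hn]
    nlinarith

section DirLip

variable {T : Type*} [TopologicalSpace T]

/-- Quotients along a direction which does not change the numerator. -/
theorem dirLip_quot {E : Type*} [NormedAddCommGroup E] [NormedSpace ℝ E] (S : Set T) (t : T)
    {N D : E → ℝ} {x a : E} (hN : ∀ y : E, ∀ τ : ℝ, N (y + τ • a) = N y)
    (cN : ContinuousAt N x) (cD : ContinuousAt D x) (hD : 0 < D x) {q : ℝ}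
    (hL : ∀ y : E, ∀ τ : ℝ, |D (y + τ • a) - D y| ≤ q * |τ|) :
    DirLip S (fun _ y => N y / D y) t x a := by
  have f1 := cD.eventually (lt_mem_nhds (show D x / 2 < D x by linarith))
  have f2 := cN.abs.eventually (gt_mem_nhds (show |N x| < |N x| + 1 by linarith))
  refine ⟨(|N x| + 1) * q / (D x / 2) ^ 2, {y | D x / 2 < D y ∧ |N y| < |N x| + 1}, by
    filter_upwards [f1, f2] with y g1 g2
    exact ⟨g1, g2⟩, Eventually.of_forall fun _ => ?_⟩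
  rintro y ⟨g1, g2⟩ τ ⟨g1', g2'⟩
  have p1 : 0 < D y := by linarith
  have p1' : 0 < D (y + τ • a) := by linarith
  show |N (y + τ • a) / D (y + τ • a) - N y / D y| ≤ _
  rw [hN y τ]
  have e : N y / D (y + τ • a) - N y / D y =
      N y * (D y - D (y + τ • a)) / (D y * D (y + τ • a)) := by
    field_simp
  have hq : 0 ≤ q * |τ| := (abs_nonneg _).trans (hL y τ)
  rw [e, abs_div, abs_of_pos (mul_pos p1 p1'), abs_mul, div_mul_eq_mul_div,
    div_le_div_iff₀ (mul_pos p1 p1') (by positivity)]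
  have h1 : |D y - D (y + τ • a)| ≤ q * |τ| := by rw [abs_sub_comm]; exact hL y τ
  have h2 : |N y| * |D y - D (y + τ • a)| ≤ (|N x| + 1) * (q * |τ|) :=
    mul_le_mul g2.le h1 (abs_nonneg _) (by positivity)
  have h3 : (D x / 2) ^ 2 ≤ D y * D (y + τ • a) := by
    rw [pow_two]
    exact mul_le_mul g1.le g1'.le (by linarith) p1.le
  calc |N y| * |D y - D (y + τ • a)| * (D x / 2) ^ 2
      ≤ (|N x| + 1) * (q * |τ|) * (D y * D (y + τ • a)) :=
        mul_le_mul h2 h3 (by positivity) (by positivity)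
    _ = _ := by ring

theorem add_one_zero (y : ℝ × (ι → ℝ)) (τ : ℝ) :
    y + τ • ((1, 0) : ℝ × (ι → ℝ)) = (y.1 + τ, y.2) := by
  refine Prod.ext ?_ ?_
  · simp
  · simp

/-- **(Y9)** for `zY`. -/
theorem dirLip_zY (S : Set T) (t : T) {s : ℝ × (ι → ℝ)} (hs : s ≠ 0) :
    DirLip S (fun _ => zY i₀) t s (1, 0) := by
  refine dirLip_quot S t (N := fun y : ℝ × (ι → ℝ) => y.2 i₀)
    (D := fun y => max (zm i₀ y) (|y.2 i₀| / 4)) (q := 1 / 2) ?_ ?_ ?_ ?_ ?_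
  · intro y τ
    show (y + τ • ((1, 0) : ℝ × (ι → ℝ))).2 i₀ = _
    rw [add_one_zero]
  · exact (continuous_co i₀).continuousAt
  · exact (continuous_zm.max ((continuous_abs.comp (continuous_co i₀)).div_const 4)).continuousAt
  · exact zY_den_pos hs
  · intro y τ
    show |max (zm i₀ (y + τ • ((1, 0) : ℝ × (ι → ℝ)))) (|(y + τ • ((1, 0) : ℝ × (ι → ℝ))).2 i₀| / 4)
      - max (zm i₀ y) (|y.2 i₀| / 4)| ≤ _
    rw [add_one_zero]
    refine (abs_max_sub_max_le_max _ _ _ _).trans ?_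
    refine max_le ?_ (by simp only [sub_self, abs_zero]; positivity)
    unfold zm
    refine (abs_max_sub_max_le_max _ _ _ _).trans ?_
    refine max_le (by simp only [sub_self, abs_zero]; positivity) ?_
    have h1 : abs (y.1 + τ) / 2 - abs y.1 / 2 = (abs (y.1 + τ) - abs y.1) / 2 := by ring
    show abs (abs (y.1 + τ) / 2 - abs y.1 / 2) ≤ _
    rw [h1, abs_div, abs_two]
    have := abs_abs_sub_abs_le (y.1 + τ) y.1
    rw [add_sub_cancel_left] at this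
    linarith

/-- **(Y9)** for `p i₀ / ‖s‖`. -/
theorem dirLip_quot_norm (S : Set T) (t : T) {s : ℝ × (ι → ℝ)} (hs : s ≠ 0) :
    DirLip S (fun _ (y : ℝ × (ι → ℝ)) => y.2 i₀ / ‖y‖) t s (1, 0) := by
  refine dirLip_quot S t (N := fun y : ℝ × (ι → ℝ) => y.2 i₀)
    (D := fun y => ‖y‖) (q := 1) ?_ ?_ ?_ ?_ ?_
  · intro y τ
    show (y + τ • ((1, 0) : ℝ × (ι → ℝ))).2 i₀ = _
    rw [add_one_zero]
  · exact (continuous_co i₀).continuousAt
  · exact continuous_norm.continuousAt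
  · exact norm_pos_iff.mpr hs
  · intro y τ
    have h := abs_norm_sub_norm_le (y + τ • ((1, 0) : ℝ × (ι → ℝ))) y
    rw [add_sub_cancel_left, norm_smul, Real.norm_eq_abs] at h
    have h1 : ‖((1, 0) : ℝ × (ι → ℝ))‖ = 1 := by simp [Prod.norm_def]
    rw [h1] at h
    linarith

end DirLip

/-- **(N1)**. -/
theorem kap_update {s : ℝ × (ι → ℝ)} (hs : s ≠ 0) (hk : |kap s i₀| < 1) {d : ℝ} (hd0 : 0 ≤ d)
    (hd1 : d ≤ 1) (hd : d = 0 ∨ ‖s.2‖ = s.1) :
    ∃ U ∈ 𝓝 s, ∀ y ∈ U, ∀ γ : ℝ, 0 ≤ γ → y + γ • zdir i₀ d ∈ U →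
      kap (y + γ • zdir i₀ d) =
        Function.update (kap y) i₀ (kap (y + γ • zdir i₀ d) i₀) ∧
      |‖y + γ • zdir i₀ d‖ - ‖y‖| ≤ d * γ := by
  obtain ⟨U, hU, H⟩ := kap_add_zdir (abs_lt.mp hk).1 (abs_lt.mp hk).2 hs
  refine ⟨U, hU, fun y hy γ hγ hyγ => ?_⟩
  obtain ⟨h1, h2⟩ := H d ⟨hd0, hd1⟩ hd y hy γ hyγ
  rw [abs_of_nonneg hγ] at h2
  refine ⟨?_, h2⟩
  funext i
  by_cases hi : i = i₀
  · subst hi
    simp
  · rw [Function.update_of_ne hi, h1 i hi]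

/-- **(N2)**: at the front of the slab. -/
theorem slab_grow {s : ℝ × (ι → ℝ)} (hs : s ≠ 0) (h : ‖s.2‖ = s.1) (hk : -(‖s‖ / 2) < s.2 i₀)
    {d : ℝ} : ∃ U ∈ 𝓝 s, ∀ y ∈ U, ∀ γ : ℝ, 0 ≤ γ → y + γ • zdir i₀ d ∈ U →
      d * γ ≤ (‖(y + γ • zdir i₀ d).2‖ - |(y + γ • zdir i₀ d).1|) - (‖y.2‖ - |y.1|) := by
  have ha := pos_fst' hs h.le
  have hns : ‖s‖ = s.1 := by
    rw [Prod.norm_def, Real.norm_eq_abs, abs_of_pos ha, max_eq_left h.le]
  -- `-rst < p i₀`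
  have h1 : 0 < s.2 i₀ + ‖Function.update s.2 i₀ 0‖ := by
    rcases lt_or_ge 0 (s.2 i₀) with h2 | h2
    · have := norm_nonneg (Function.update s.2 i₀ 0)
      linarith
    · have h3 := norm_eq_max i₀ s.2
      rw [h, abs_of_nonpos h2] at h3
      rcases le_total ‖Function.update s.2 i₀ 0‖ (-s.2 i₀) with h4 | h4
      · rw [max_eq_right h4] at h3
        linarith
      · rw [max_eq_left h4] at h3
        linarith
  have cr : Continuous fun s : ℝ × (ι → ℝ) => ‖Function.update s.2 i₀ (0 : ℝ)‖ :=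
    (continuous_snd.update i₀ continuous_const).norm
  have f1 := ((continuous_co i₀).add cr).continuousAt.eventually (lt_mem_nhds h1)
  have f2 := (continuous_fst (X := ℝ) (Y := ι → ℝ)).continuousAt.eventually (lt_mem_nhds ha)
  refine ⟨{y | 0 < y.2 i₀ + ‖Function.update y.2 i₀ (0 : ℝ)‖ ∧ 0 < y.1}, by
    filter_upwards [f1, f2] with y g1 g2
    exact ⟨g1, g2⟩, ?_⟩
  rintro y ⟨g1, g2⟩ γ hγ ⟨g1', g2'⟩
  rw [abs_of_pos g2, abs_of_pos g2', add_zdir_fst, norm_eq_max i₀ y.2,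
    norm_eq_max i₀ (y + γ • zdir i₀ d).2, update_add_zdir, add_zdir_same]
  have key : max ‖Function.update y.2 i₀ 0‖ |y.2 i₀| ≤
      max ‖Function.update y.2 i₀ 0‖ |y.2 i₀ + γ| := by
    refine max_le (le_max_left _ _) ?_
    rcases le_or_gt 0 (y.2 i₀) with h3 | h3
    · refine le_max_of_le_right ?_
      rw [abs_of_nonneg h3, abs_of_nonneg (by linarith)]
      linarith
    · refine le_max_of_le_left ?_
      rw [abs_of_neg h3]
      linarith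
  have : γ * d = d * γ := mul_comm _ _
  linarith

end Vale.Agent.P268.T.H312
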